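import Vale.Agent.P032.Main.Frame

/-!
P032: the directions used by the certificates and a good position on the circle for them.
-/

namespace Vale.Agent.P032

open Set Filter Topology Metric Complex ComplexConjugate Cert

/-- The angle with cosine `√33/6`. -/
noncomputable def half : ℝ := Real.arccos (Real.sqrt 33 / 6)

lemma sqrt33_le : Real.sqrt 33 / 6 ≤ 1 := by
  rw [div_le_one (by norm_num)]
  nlinarith [Real.sq_sqrt (show (0 : ℝ) ≤ 33 by norm_num), Real.sqrt_nonneg 33]

lemma cos_half : Real.cos half = Real.sqrt 33 / 6 :=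
  Real.cos_arccos (by linarith [show (0 : ℝ) ≤ Real.sqrt 33 / 6 by positivity]) sqrt33_le

lemma sin_half : Real.sin half = Real.sqrt 3 / 6 := by
  rw [half, Real.sin_arccos, div_pow, Real.sq_sqrt (by norm_num),
    show (1 : ℝ) - 33 / 6 ^ 2 = 3 / 6 ^ 2 by norm_num, Real.sqrt_div (by norm_num),
    Real.sqrt_sq (by norm_num)]

lemma half_irrational : Irrational (half / (Real.pi / 3)) := by
  rintro ⟨r, hr⟩
  have hπ := Real.pi_ne_zero
  have hcos : Real.cos (2 * half) = 5 / 6 := by
    rw [Real.cos_two_mul, cos_half, div_pow, Real.sq_sqrt (by norm_num)]; norm_num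
  have h := niven (θ := 2 * half) ⟨2 * r / 3, by push_cast; rw [hr]; field_simp⟩
    ⟨5 / 6, by rw [hcos]; norm_num⟩
  rw [hcos] at h
  norm_num at h

lemma spin_third : spin (Real.pi / 3) = Cover.sixth := by
  apply Complex.ext
  · rw [spin, Complex.exp_ofReal_mul_I_re, Real.cos_pi_div_three]; simp [Cover.sixth]
  · rw [spin, Complex.exp_ofReal_mul_I_im, Real.sin_pi_div_three]; simp [Cover.sixth]

namespace Cert

/-- The second point is the first turned by a Cover.sixth of a turn. -/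
def Pt.six (p q : Pt) : Bool :=
  decide (2 * q.a = p.a - 3 * p.c) && decide (2 * q.b = p.b - 3 * p.d) &&
    decide (2 * q.c = p.a + p.c) && decide (2 * q.d = p.b + p.d)

lemma Pt.val_six {p q : Pt} (h : p.six q = true) : q.val = Cover.sixth * p.val := by
  simp only [Pt.six, Bool.and_eq_true, decide_eq_true_eq] at h
  have ha : 2 * (q.a : ℝ) = p.a - 3 * p.c := by exact_mod_cast h.1.1.1
  have hb : 2 * (q.b : ℝ) = p.b - 3 * p.d := by exact_mod_cast h.1.1.2
  have hc : 2 * (q.c : ℝ) = p.a + p.c := by exact_mod_cast h.1.2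
  have hd : 2 * (q.d : ℝ) = p.b + p.d := by exact_mod_cast h.2
  have s3 : Real.sqrt 3 * Real.sqrt 3 = 3 := Real.mul_self_sqrt (by norm_num)
  apply Complex.ext
  · simp [Pt.val, Cover.sixth]
    linear_combination ha / 72 + (Real.sqrt 33 / 72) * hb +
      (((p.c : ℝ) + p.d * Real.sqrt 33) / 72) * s3
  · simp [Pt.val, Cover.sixth]
    linear_combination (Real.sqrt 3 / 72) * hc + (Real.sqrt 3 * Real.sqrt 33 / 72) * hd

/-- The directions at multiples of a Cover.sixth of a turn. -/
def dirs0 : List Pt :=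
  [⟨36, 0, 0, 0⟩, ⟨18, 0, 18, 0⟩, ⟨-18, 0, 18, 0⟩, ⟨-36, 0, 0, 0⟩, ⟨-18, 0, -18, 0⟩, ⟨18, 0, -18, 0⟩]

/-- The same, turned by `half`. -/
def dirs1 : List Pt :=
  [⟨0, 6, 6, 0⟩, ⟨-9, 3, 3, 3⟩, ⟨-9, -3, -3, 3⟩, ⟨0, -6, -6, 0⟩, ⟨9, -3, -3, -3⟩, ⟨9, 3, 3, -3⟩]

/-- The same, turned by twice `half`. -/
def dirs2 : List Pt :=
  [⟨30, 0, 0, 2⟩, ⟨15, -3, 15, 1⟩, ⟨-15, -3, 15, -1⟩, ⟨-30, 0, 0, -2⟩, ⟨-15, 3, -15, -1⟩,
    ⟨15, 3, -15, 1⟩]

/-- Every unit offset is one of the known directions. -/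
def knownDirs (X : Ctx) : Bool :=
  X.pts.all fun b => !b.unit || (dirs0.any b.same || dirs1.any b.same || dirs2.any b.same)

lemma val_dirs {L : List Pt} {α : ℝ} (h0 : (L.getD 0 Pt.zero).val = spin α)
    (hsix : ∀ k : ℕ, k < 5 → (L.getD k Pt.zero).six (L.getD (k + 1) Pt.zero) = true) :
    ∀ k : ℕ, k < 6 → (L.getD k Pt.zero).val = spin (α + k * (Real.pi / 3))
  | 0, _ => by simpa using h0
  | k + 1, hk => by
    rw [Pt.val_six (hsix k (by omega)), val_dirs h0 hsix k (by omega), ← spin_third, ← spin_add]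
    congr 1; push_cast; ring

lemma val_dirs0 : (dirs0.getD 0 Pt.zero).val = spin 0 := by
  rw [spin_zero]; apply Complex.ext <;> simp [dirs0, Pt.val]

lemma val_dirs1 : (dirs1.getD 0 Pt.zero).val = spin half := by
  apply Complex.ext <;>
    simp [dirs1, Pt.val, spin, Complex.exp_ofReal_mul_I_re, Complex.exp_ofReal_mul_I_im, cos_half,
      sin_half] <;> ring

lemma val_dirs2 : (dirs2.getD 0 Pt.zero).val = spin (2 * half) := by
  rw [two_mul, spin_add]
  have s3 : Real.sqrt 3 * Real.sqrt 3 = 3 := Real.mul_self_sqrt (by norm_num)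
  have s33 : Real.sqrt 33 * Real.sqrt 33 = 33 := Real.mul_self_sqrt (by norm_num)
  apply Complex.ext <;>
    simp [dirs2, Pt.val, spin, Complex.exp_ofReal_mul_I_re, Complex.exp_ofReal_mul_I_im, cos_half,
      sin_half]
  · linear_combination (1 / 36 : ℝ) * s3 - (1 / 36 : ℝ) * s33
  · ring

lemma mem_dirs {L : List Pt} {b : Pt} (hlen : L.length = 6) (h : L.any b.same = true) :
    ∃ k : ℕ, k < 6 ∧ b = L.getD k Pt.zero := by
  obtain ⟨q, hq, hs⟩ := List.any_eq_true.1 h
  obtain ⟨k, hk, rfl⟩ := List.getElem_of_mem hq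
  exact ⟨k, by omega, by rw [List.getD_eq_getElem _ _ hk]; exact Pt.same_iff.1 hs⟩

end Cert

/-- A set of changes on the circle that leaves the directions of the certificates free. -/
structure Calm (G : Set ℝ) : Prop where
  closed : IsClosed G
  periodic : ∀ t, t + Real.pi / 3 ∈ G ↔ t ∈ G
  right : ∀ᶠ t in 𝓝[>] 0, t ∉ G
  one : half ∉ G
  two : 2 * half ∉ G

lemma periodic_int {G : Set ℝ} (h : ∀ t, t + Real.pi / 3 ∈ G ↔ t ∈ G) :
    ∀ (k : ℤ) (t : ℝ), t + k * (Real.pi / 3) ∈ G ↔ t ∈ G := by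
  intro k
  induction k using Int.induction_on with
  | zero => simp
  | succ k ih =>
    intro t
    rw [← ih t, ← h (t + ((k : ℤ) : ℝ) * (Real.pi / 3))]
    push_cast; ring_nf
  | pred k ih =>
    intro t
    rw [← ih t, ← h (t + (((-(k : ℤ) - 1 : ℤ)) : ℝ) * (Real.pi / 3))]
    push_cast; ring_nf

/-- Some change has a gap to its right and none at the two other angles. -/
theorem exists_calm {G : Set ℝ} (hc : IsClosed G) (hi : interior G = ∅) (hne : G.Nonempty)
    (hp : ∀ t, t + Real.pi / 3 ∈ G ↔ t ∈ G) :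
    ∃ θ ∈ G, Calm ((fun t => θ + t) ⁻¹' G) := by
  by_contra hno
  push Not at hno
  have hstep : ∀ x ∈ G, x + half ∈ G ∨ x + 2 * half ∈ G := by
    intro x hx
    have hcl : IsClosed ((fun t => t + half) ⁻¹' G ∪ (fun t => t + 2 * half) ⁻¹' G) :=
      (hc.preimage (continuous_add_const _)).union (hc.preimage (continuous_add_const _))
    refine hcl.closure_subset (Metric.mem_closure_iff.2 fun ε hε => ?_)
    obtain ⟨y, hy, hyG⟩ : ∃ y ∈ Ioo x (x + ε), y ∉ G := by
      by_contra h
      push Not at h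
      have h2 : x + ε / 2 ∈ interior G := (isOpen_Ioo.subset_interior_iff.2 fun y hy => h y hy)
        ⟨by linarith, by linarith⟩
      rw [hi] at h2
      exact h2
    have hmem : sSup (G ∩ Icc x y) ∈ G ∩ Icc x y :=
      (hc.inter isClosed_Icc).csSup_mem ⟨x, hx, le_rfl, hy.1.le⟩
        (bddAbove_Icc.mono inter_subset_right)
    set θ := sSup (G ∩ Icc x y) with hθ
    have hlt : θ < y := lt_of_le_of_ne hmem.2.2 fun e => hyG (e ▸ hmem.1)
    refine ⟨θ, ?_, by rw [Real.dist_eq, abs_lt]; constructor <;> linarith [hmem.2.1, hy.2]⟩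
    by_contra hθ'
    simp only [mem_union, mem_preimage, not_or] at hθ'
    refine hno θ hmem.1 ⟨hc.preimage (continuous_const_add _), fun t => ?_, ?_, hθ'.1, hθ'.2⟩
    · simp only [mem_preimage, ← add_assoc]; exact hp _
    · filter_upwards [Ioo_mem_nhdsGT (show (0 : ℝ) < y - θ by linarith)] with t ht hmt
      have : θ + t ≤ θ := le_csSup (bddAbove_Icc.mono inter_subset_right)
        ⟨hmt, by linarith [hmem.2.1, ht.1], by linarith [ht.2]⟩
      linarith [ht.1]
  set Y : Set ℝ := G ∪ (fun t => t - half) ⁻¹' G with hY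
  have hYc : IsClosed Y := hc.union (hc.preimage (continuous_sub_right _))
  set S : Set ℝ := {d | ∀ y ∈ Y, y + d ∈ Y} with hS
  have hSc : IsClosed S := by
    simp only [hS, Set.ofPred_forall]
    exact isClosed_biInter fun y _ => hYc.preimage (continuous_const_add y)
  have hSadd : ∀ a ∈ S, ∀ b ∈ S, a + b ∈ S := fun a ha b hb y hy => by
    rw [← add_assoc]; exact hb _ (ha y hy)
  have hShalf : half ∈ S := by
    rintro y (hy | hy)
    · exact Or.inr (by simpa using hy)
    · have hy' : y - half ∈ G := hy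
      rcases hstep _ hy' with h | h
      · exact Or.inr (by simpa using h)
      · exact Or.inl (by ring_nf at h ⊢; exact h)
  have hSper : ∀ k : ℤ, (k : ℝ) * (Real.pi / 3) ∈ S := fun k y hy => by
    rcases hy with hy | hy
    · exact Or.inl ((periodic_int hp k y).2 hy)
    · refine Or.inr ?_
      show y + k * (Real.pi / 3) - half ∈ G
      rw [show y + k * (Real.pi / 3) - half = y - half + k * (Real.pi / 3) by ring]
      exact (periodic_int hp k _).2 hy
  have hSmul : ∀ a ∈ S, ∀ n : ℕ, (n : ℝ) * a ∈ S := fun a ha n => by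
    induction n with
    | zero => intro y hy; simpa using hy
    | succ n ih => push_cast; rw [add_mul, one_mul]; exact hSadd _ ih _ ha
  have hall : ∀ d, d ∈ S := by
    intro d
    refine hSc.closure_subset (Metric.mem_closure_iff.2 fun ε hε => ?_)
    have hp0 : 0 < Real.pi / 3 := by positivity
    obtain ⟨n, hn⟩ := exists_nat_gt (Real.pi / 3 / ε)
    have hn0 : 0 < n := by
      have h0 : (0 : ℝ) < n := lt_trans (by positivity) hn
      exact_mod_cast h0
    obtain ⟨j, k, hk, -, hjk⟩ := Real.exists_int_int_abs_mul_sub_le (half / (Real.pi / 3)) hn0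
    set δ := (k : ℝ) * half - j * (Real.pi / 3) with hδ
    have e : δ = ((k : ℝ) * (half / (Real.pi / 3)) - j) * (Real.pi / 3) := by rw [hδ]; field_simp
    have hδS : δ ∈ S := by
      have h1 : ((k.toNat : ℕ) : ℝ) = (k : ℝ) := by
        exact_mod_cast Int.toNat_of_nonneg hk.le
      have h2 := hSadd _ (hSmul _ hShalf k.toNat) _ (hSper (-j))
      rw [h1] at h2
      rw [hδ]
      convert h2 using 1
      push_cast; ring
    have hδ0 : δ ≠ 0 := by
      rw [e]
      refine mul_ne_zero ?_ hp0.ne'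
      intro h
      exact (half_irrational.intCast_mul hk.ne').ne_int j (sub_eq_zero.1 h)
    have hδε : |δ| < ε := by
      rw [e, abs_mul, abs_of_pos hp0]
      refine lt_of_le_of_lt (mul_le_mul_of_nonneg_right hjk hp0.le) ?_
      rw [div_lt_iff₀ hε] at hn
      rw [div_mul_eq_mul_div, div_lt_iff₀ (by positivity)]
      nlinarith
    obtain ⟨P, hP⟩ : ∃ P : ℤ, 0 ≤ (d + P * (Real.pi / 3)) / δ := by
      rcases lt_or_gt_of_ne hδ0 with hn' | hp'
      · refine ⟨-⌈|d| / (Real.pi / 3)⌉, div_nonneg_of_nonpos ?_ hn'.le⟩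
        have := Int.le_ceil (|d| / (Real.pi / 3))
        rw [div_le_iff₀ hp0] at this
        push_cast
        linarith [le_abs_self d]
      · refine ⟨⌈|d| / (Real.pi / 3)⌉, div_nonneg ?_ hp'.le⟩
        have := Int.le_ceil (|d| / (Real.pi / 3))
        rw [div_le_iff₀ hp0] at this
        linarith [neg_abs_le d]
    set q := (d + P * (Real.pi / 3)) / δ with hq
    refine ⟨(⌊q⌋₊ : ℝ) * δ + ((-P : ℤ) : ℝ) * (Real.pi / 3),
      hSadd _ (hSmul _ hδS _) _ (hSper _), ?_⟩
    have hd : d - ((⌊q⌋₊ : ℝ) * δ + ((-P : ℤ) : ℝ) * (Real.pi / 3)) = (q - ⌊q⌋₊) * δ := by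
      rw [sub_mul, hq, div_mul_cancel₀ _ hδ0]; push_cast; ring
    rw [Real.dist_eq, hd, abs_mul]
    refine lt_of_le_of_lt ?_ hδε
    refine mul_le_of_le_one_left (abs_nonneg _) (abs_le.2 ⟨?_, ?_⟩)
    · linarith [Nat.floor_le hP]
    · linarith [Nat.lt_floor_add_one q]
  obtain ⟨g, hg⟩ := hne
  have huniv : Y = univ := eq_univ_of_forall fun y => by
    simpa using hall (y - g) g (Or.inl hg)
  have hint : interior Y = ∅ := by
    rw [hY, interior_union_isClosed_of_interior_empty hc]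
    · exact hi
    · rw [show (fun t => t - half) ⁻¹' G = Homeomorph.subRight half ⁻¹' G from rfl,
        ← Homeomorph.preimage_interior, hi, preimage_empty]
  rw [huniv, interior_univ] at hint
  exact univ_nonempty.ne_empty hint

namespace Calm

/-- Around an admissible direction the sides in question form an interval without changes. -/
lemma side {G : Set ℝ} (hG : Calm G) {X : Ctx} (hX : knownDirs X = true) {j : ℕ} {s s' : Bool}
    (hr : regOk (X.pt j) s s' = true) : ∃ β J, (X.pt j).val = spin β ∧ IsPreconnected J ∧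
      IsOpen J ∧ (∀ t ∈ J, t ∉ G) ∧ (∀ᶠ t in 𝓝[>] 0, β + dir s * t ∈ J) ∧
      ∀ᶠ t in 𝓝[>] 0, β + dir s' * t ∈ J := by
  simp only [regOk, Bool.and_eq_true, Bool.or_eq_true, Bool.not_eq_true'] at hr
  have hmem : (X.pt j) ∈ X.pts := by
    by_cases h : j < X.pts.length
    · rw [Ctx.pt, List.getD_eq_getElem _ _ h]; exact List.getElem_mem h
    · exfalso
      rw [Ctx.pt, List.getD_eq_default _ _ (not_lt.1 h)] at hr
      exact absurd hr.1 (by decide)
  have hk := List.all_eq_true.1 hX _ hmem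
  simp only [hr.1, Bool.not_true, Bool.false_or, Bool.or_eq_true] at hk
  have hoff : ∀ α, α ∉ G → ∀ k : ℕ, ∀ β, β = α + k * (Real.pi / 3) → ∃ J, IsPreconnected J ∧
      IsOpen J ∧ (∀ t ∈ J, t ∉ G) ∧ (∀ᶠ t in 𝓝[>] 0, β + dir s * t ∈ J) ∧
      ∀ᶠ t in 𝓝[>] 0, β + dir s' * t ∈ J := by
    intro α hα k β hβ
    have hb : β ∉ G := by
      rw [hβ]
      exact fun h => hα ((periodic_int hG.periodic k α).1 (by simpa using h))
    obtain ⟨r, hr, hball⟩ := Metric.mem_nhds_iff.1 (hG.closed.isOpen_compl.mem_nhds hb)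
    have hev : ∀ q : Bool, ∀ᶠ t in 𝓝[>] (0 : ℝ), β + dir q * t ∈ ball β r := fun q => by
      have h := (tendsto_dir q).const_add β
      rw [add_zero] at h
      exact h.eventually (ball_mem_nhds β hr)
    exact ⟨ball β r, (convex_ball β r).isPreconnected, isOpen_ball,
      fun t ht => hball ht, hev s, hev s'⟩
  rcases hk with (hk | hk) | hk
  · obtain ⟨k, hk6, hb⟩ := mem_dirs rfl hk
    have hss : s = true ∧ s' = true := by
      rcases hr.2 with h | h
      · exact h
      · exfalso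
        rw [hb] at h
        revert h; clear * - hk6; revert k; decide
    refine ⟨0 + k * (Real.pi / 3), ?_⟩
    have hv : (X.pt j).val = spin (0 + k * (Real.pi / 3)) := by
      rw [hb, val_dirs val_dirs0 (by decide) k hk6]
    obtain ⟨r, hr0, hsub⟩ := mem_nhdsGT_iff_exists_Ioo_subset.1 hG.right
    have hr0' : (0 : ℝ) < r := hr0
    refine ⟨Ioo (0 + k * (Real.pi / 3)) (r + k * (Real.pi / 3)), hv, isPreconnected_Ioo,
      isOpen_Ioo, fun t ht hmem => ?_, ?_⟩
    · refine hsub (show t - k * (Real.pi / 3) ∈ Ioo 0 r from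
        ⟨by linarith [ht.1], by linarith [ht.2]⟩) ?_
      refine (periodic_int hG.periodic k _).1 ?_
      simpa using hmem
    · rw [hss.1, hss.2]
      have : ∀ᶠ t in 𝓝[>] (0 : ℝ), 0 + k * (Real.pi / 3) + dir true * t ∈
          Ioo (0 + k * (Real.pi / 3)) (r + k * (Real.pi / 3)) := by
        filter_upwards [Ioo_mem_nhdsGT hr0'] with t ht
        constructor <;> simp [dir] <;> linarith [ht.1, ht.2]
      exact ⟨this, this⟩
  · obtain ⟨k, hk6, hb⟩ := mem_dirs rfl hk
    obtain ⟨J, hJ⟩ := hoff half hG.one k _ rfl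
    exact ⟨_, J, by rw [hb, val_dirs val_dirs1 (by decide) k hk6], hJ⟩
  · obtain ⟨k, hk6, hb⟩ := mem_dirs rfl hk
    obtain ⟨J, hJ⟩ := hoff (2 * half) hG.two k _ rfl
    exact ⟨_, J, by rw [hb, val_dirs val_dirs2 (by decide) k hk6], hJ⟩

end Calm

/-- A connected set that avoids the boundary of a set it meets lies inside that set. -/
lemma subset_interior_of_meets {J F : Set ℝ} (hJ : IsPreconnected J)
    (hav : ∀ t ∈ J, t ∉ frontier F) (hne : (J ∩ F).Nonempty) : J ⊆ interior F := by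
  have hint : ∀ t ∈ J, t ∈ closure F → t ∈ interior F := fun t ht hc => by
    by_contra hn
    exact hav t ht ⟨hc, hn⟩
  refine hJ.subset_left_of_subset_union isOpen_interior
    (isClosed_closure (s := F)).isOpen_compl ?_ ?_ ?_
  · exact Set.disjoint_left.2 fun t h h' => h' (subset_closure (interior_subset h))
  · intro t ht
    by_cases hc : t ∈ closure F
    · exact Or.inl (hint t ht hc)
    · exact Or.inr hc
  · obtain ⟨t, ht, hF⟩ := hne
    exact ⟨t, ht, hint t ht (subset_closure hF)⟩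

variable {C : Cover} {X : Ctx} {j : ℕ} {β : ℝ}

lemma path_spin (hb : (X.pt j).val = spin β) (s : Bool) (t : ℝ) :
    path X 0 j s t = spin (β + dir s * t) := by
  rw [path, cen_zero, hb, orbit, zero_add, spin_add]; rfl

lemma allNear_iff (hb : (X.pt j).val = spin β) (s : Bool) (c : Fin 5) :
    AllNear C X 0 j s c ↔ ∀ᶠ t in 𝓝[>] 0, β + dir s * t ∈ C.circ c := by
  simp only [AllNear, path_spin hb, Cover.circ, mem_ofPred_eq]

lemma someNear_iff (hb : (X.pt j).val = spin β) (s : Bool) (c : Fin 5) :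
    SomeNear C X 0 j s c ↔ ∃ᶠ t in 𝓝[>] 0, β + dir s * t ∈ interior (C.circ c) := by
  have h0 : dir s ≠ 0 := dir_ne s
  let e : ℝ ≃ₜ ℝ := (Homeomorph.mulLeft₀ (dir s) h0).trans (Homeomorph.addLeft β)
  refine frequently_congr (Eventually.of_forall fun t => ?_)
  rw [show (β + dir s * t ∈ interior (C.circ c)) ↔ t ∈ e ⁻¹' interior (C.circ c) from Iff.rfl,
    e.preimage_interior, mem_interior_iff_mem_nhds, Filter.Eventually]
  simp only [path_spin hb]
  rfl

end Vale.Agent.P032
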