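import Vale.Agent.P032.Main.Three

/-!
P032: the changes on the circle about a point of exactly four classes.
-/

namespace Vale.Agent.P032

open Set Filter Topology Metric Complex ComplexConjugate Cert

namespace Cover

variable (C : Cover)

/-- A configuration about a point of exactly the first four classes, when no point has three. -/
structure QuadConf : Prop where
  root_K : ∀ c, (0 : ℂ) ∈ C.K c ↔ c.val < 4
  root_not : ¬ C.Inside 0
  three : ∀ p, ¬ C.Inside p → (cols C p).card ≠ 3

/-- The last colour (`none`), or an earlier one where the last is absent. -/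
def piece : Option (Fin 5) → Set ℝ
  | none => closure (interior (C.circ 4))
  | some c => closure (interior (C.circ c) \ C.circ 4)

/-- The boundaries of the pieces. -/
def changes₀ : Set ℝ := ⋃ o, frontier (C.piece o)

/-- The boundaries of the pieces and their copies at multiples of a sixth of a turn. -/
def changes : Set ℝ := ⋃ k : Fin 6, (fun t => t + (k.val : ℝ) * (Real.pi / 3)) ⁻¹' C.changes₀

lemma isClosed_changes₀ : IsClosed C.changes₀ :=
  isClosed_iUnion_of_finite fun _ => isClosed_frontier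

lemma isClosed_changes : IsClosed C.changes :=
  isClosed_iUnion_of_finite fun _ => C.isClosed_changes₀.preimage (continuous_add_const _)

lemma isClosed_piece : ∀ o, IsClosed (C.piece o)
  | none => isClosed_closure
  | some _ => isClosed_closure

lemma piece_sub : ∀ o : Option (Fin 5), C.piece o ⊆ C.circ (o.getD 4)
  | none => closure_minimal interior_subset (C.isClosed_circ 4)
  | some c => closure_minimal (diff_subset.trans interior_subset) (C.isClosed_circ c)

lemma interior_changes : interior C.changes = ∅ := by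
  rw [interior_eq_empty_iff_dense_compl]
  simp only [changes, changes₀, preimage_iUnion, compl_iUnion]
  rw [show (⋂ k : Fin 6, ⋂ o : Option (Fin 5),
      ((fun t => t + (k.val : ℝ) * (Real.pi / 3)) ⁻¹' frontier (C.piece o))ᶜ) =
      ⋂ q : Fin 6 × Option (Fin 5),
        ((fun t => t + (q.1.val : ℝ) * (Real.pi / 3)) ⁻¹' frontier (C.piece q.2))ᶜ by
    ext t; simp [Prod.forall]]
  refine dense_iInter_of_isOpen
    (fun q => (isClosed_frontier.preimage (continuous_add_const _)).isOpen_compl) fun q => ?_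
  rw [← interior_eq_empty_iff_dense_compl,
    show (fun t => t + (q.1.val : ℝ) * (Real.pi / 3)) =
      Homeomorph.addRight ((q.1.val : ℝ) * (Real.pi / 3)) from rfl,
    ← Homeomorph.preimage_interior, interior_frontier (C.isClosed_piece _), preimage_empty]

lemma piece_map (D : Cover) (a : ℝ) (h : ∀ c t, t ∈ D.circ c ↔ a + t ∈ C.circ c) (o : Option (Fin 5)) :
    D.piece o = Homeomorph.addLeft a ⁻¹' C.piece o := by
  have e : ∀ c, D.circ c = Homeomorph.addLeft a ⁻¹' C.circ c := fun c => Set.ext (h c)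
  cases o <;> simp only [piece, e, ← Homeomorph.preimage_interior, ← Homeomorph.preimage_closure,
    ← preimage_sdiff]

lemma changes₀_map (D : Cover) (a : ℝ) (h : ∀ c t, t ∈ D.circ c ↔ a + t ∈ C.circ c) :
    D.changes₀ = Homeomorph.addLeft a ⁻¹' C.changes₀ := by
  simp only [changes₀, preimage_iUnion, C.piece_map D a h, ← Homeomorph.preimage_frontier]

lemma changes_map (D : Cover) (a : ℝ) (h : ∀ c t, t ∈ D.circ c ↔ a + t ∈ C.circ c) :
    D.changes = (fun t => a + t) ⁻¹' C.changes := by
  simp only [changes, preimage_iUnion, C.changes₀_map D a h]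
  refine iUnion_congr fun k => ?_
  ext t
  simp [add_assoc]

lemma changes₀_periodic : Function.Periodic (fun t => t ∈ C.changes₀) (2 * Real.pi) := fun t => by
  have h : ∀ c u, u ∈ C.circ c ↔ 2 * Real.pi + u ∈ C.circ c := fun c u => by
    simp only [Cover.circ, mem_ofPred_eq, add_comm (2 * Real.pi), spin_periodic u]
  rw [eq_iff_iff]
  conv_rhs => rw [C.changes₀_map C (2 * Real.pi) h]
  simp [add_comm]

lemma mem_changes {t : ℝ} : t ∈ C.changes ↔ ∃ k : ℤ, t + k * (Real.pi / 3) ∈ C.changes₀ := by
  simp only [changes, mem_iUnion, mem_preimage]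
  refine ⟨fun ⟨k, hk⟩ => ⟨(k.val : ℤ), by simpa using hk⟩, fun ⟨k, hk⟩ => ?_⟩
  refine ⟨⟨(k % 6).toNat, by omega⟩, ?_⟩
  have hm : (((k % 6).toNat : ℕ) : ℝ) = ((k % 6 : ℤ) : ℝ) := by
    exact_mod_cast Int.toNat_of_nonneg (Int.emod_nonneg k (by norm_num))
  have hk' : (k : ℝ) = ((k % 6 : ℤ) : ℝ) + 6 * ((k / 6 : ℤ) : ℝ) := by
    exact_mod_cast (Int.emod_add_mul_ediv k 6).symm
  have := (C.changes₀_periodic.int_mul (k / 6)) (t + ((k % 6).toNat : ℕ) * (Real.pi / 3))
  simp only [eq_iff_iff] at this
  refine this.1 ?_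
  rw [hm]
  convert hk using 1
  rw [hk']; ring

lemma mem_changes_of_frontier {t : ℝ} {o : Option (Fin 5)} (h : t ∈ frontier (C.piece o)) :
    t ∈ C.changes := by
  have h' : t ∈ C.changes₀ := mem_iUnion.2 ⟨o, h⟩
  exact C.mem_changes.2 ⟨0, by simpa using h'⟩

lemma changes_periodic (t : ℝ) : t + Real.pi / 3 ∈ C.changes ↔ t ∈ C.changes := by
  rw [C.mem_changes, C.mem_changes]
  constructor <;> rintro ⟨k, hk⟩
  · exact ⟨k + 1, by push_cast; convert hk using 1; ring⟩
  · exact ⟨k - 1, by push_cast; convert hk using 1; ring⟩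

lemma changes_nonempty : C.changes.Nonempty := by
  by_contra hne
  have hav : ∀ o, ∀ t, t ∉ frontier (C.piece o) := fun o t ht =>
    hne ⟨t, C.mem_changes_of_frontier ht⟩
  have full : ∀ o, ¬ (C.piece o).Nonempty := by
    intro o ho
    have h : ∀ t, t ∈ interior (C.piece o) := fun t =>
      subset_interior_of_meets isPreconnected_univ (fun u _ => hav o u)
        (by rwa [univ_inter]) (mem_univ t)
    refine (notMem_circ_of_arc (a := o.getD 4) (interior_mono (C.piece_sub o) (h 0))).1 ?_
    exact C.piece_sub o (interior_subset (h _))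
  have h4 : ∀ t, t ∉ interior (C.circ 4) := fun t ht =>
    full none ⟨t, subset_closure ht⟩
  obtain ⟨t, -, hst⟩ := Cover.exists_stable C.circ C.isClosed_circ isOpen_univ univ_nonempty
  obtain ⟨c, hc⟩ := C.exists_mem_K (spin t)
  have hint : t ∈ interior (C.circ c) :=
    mem_interior_iff_mem_nhds.2 ((hst c).mono fun u hu => hu.2 hc)
  have h4' : t ∉ C.circ 4 := fun hm =>
    h4 t (mem_interior_iff_mem_nhds.2 ((hst 4).mono fun u hu => hu.2 hm))
  exact full (some c) ⟨t, subset_closure ⟨hint, h4'⟩⟩

variable {C}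

/-- A turned configuration with a calm set of changes at the origin. -/
structure QuadNormal (C : Cover) : Prop extends QuadConf C where
  calm : Calm C.changes
  change : (0 : ℝ) ∈ C.changes

namespace QuadConf

lemma rot_conf (h : QuadConf C) (a : ℝ) : QuadConf (C.map (move 0 a)) :=
  ⟨fun c => by rw [C.mem_map_K]; simpa using h.root_K c,
    by rw [C.inside_map]; simpa using h.root_not,
    fun p hp => by rw [cols_map]; exact h.three _ (by rwa [C.inside_map] at hp)⟩

lemma perm_conf (h : QuadConf C) (σ : Equiv.Perm (Fin 5))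
    (hσ : ∀ c : Fin 5, (σ c).val < 4 ↔ c.val < 4) : QuadConf (C.perm σ) :=
  ⟨fun c => by rw [C.mem_perm_K, h.root_K, hσ], by rw [C.inside_perm]; exact h.root_not,
    fun p hp => by rw [card_cols_perm]; exact h.three _ (by rwa [C.inside_perm] at hp)⟩

end QuadConf

namespace QuadNormal

variable (hn : QuadNormal C)
include hn

lemma rot (k : ℤ) : QuadNormal (C.map (move 0 ((k : ℝ) * (Real.pi / 3)))) := by
  have e : (C.map (move 0 ((k : ℝ) * (Real.pi / 3)))).changes = C.changes := by
    rw [C.changes_map _ ((k : ℝ) * (Real.pi / 3)) fun c t => C.mem_circ_rot _ c t]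
    ext t
    rw [mem_preimage, add_comm, periodic_int hn.calm.periodic]
  exact ⟨hn.toQuadConf.rot_conf _, e.symm ▸ hn.calm, e.symm ▸ hn.change⟩

lemma perm' (σ : Equiv.Perm (Fin 5)) (hσ : ∀ c : Fin 5, (σ c).val < 4 ↔ c.val < 4) :
    QuadNormal (C.perm σ) := by
  have h4 : σ 4 = 4 := by
    have : ¬ (σ 4).val < 4 := by rw [hσ]; decide
    revert this; generalize σ 4 = x; revert x; decide
  have e : (C.perm σ).changes = C.changes := by
    have e4 : (C.perm σ).circ 4 = C.circ 4 := by ext t; rw [C.mem_circ_perm, h4]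
    have ec : ∀ c, (C.perm σ).circ c = C.circ (σ c) := fun c => Set.ext (C.mem_circ_perm σ c)
    have e0 : (C.perm σ).changes₀ = C.changes₀ := by
      ext t
      simp only [changes₀, mem_iUnion, Option.exists, piece, e4, ec]
      refine or_congr Iff.rfl ⟨fun ⟨c, hc⟩ => ⟨_, hc⟩, fun ⟨c, hc⟩ => ⟨σ.symm c, ?_⟩⟩
      simpa [Equiv.apply_symm_apply] using hc
    simp only [changes, e0]
  exact ⟨hn.toQuadConf.perm_conf σ hσ, e.symm ▸ hn.calm, e.symm ▸ hn.change⟩

/-- The hypotheses of a certificate for this kind of root. -/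
lemma hyp {X : Ctx} {τ : Bool → ℝ} (hroot : X.root = .quad) (hX : knownDirs X = true)
    (hgiven : ∀ g ∈ X.given, ∃ l ∈ g, Holds (Val C X τ) l) : Hyp C X τ := by
  have sides : ∀ j s s', regOk (X.pt j) s s' = true → ∃ β J, (X.pt j).val = spin β ∧
      IsPreconnected J ∧ IsOpen J ∧ (∀ o, ∀ t ∈ J, t ∉ frontier (C.piece o)) ∧
      (∀ᶠ t in 𝓝[>] 0, β + dir s * t ∈ J) ∧ ∀ᶠ t in 𝓝[>] 0, β + dir s' * t ∈ J := by
    intro j s s' h
    obtain ⟨β, J, hβ, hJ, hJo, hav, hs, hs'⟩ := hn.calm.side hX h
    exact ⟨β, J, hβ, hJ, hJo, fun o t ht hf =>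
      hav t ht (C.mem_changes_of_frontier hf), hs, hs'⟩
  refine ⟨fun c => ?_, hn.root_not, fun _ p hp => C.not_five hp, fun _ => hn.three, ?_, ?_,
    given_of hgiven⟩
  · rw [hn.root_K, hroot]; simp [Root.has]
  · rintro j s s' c hreg (⟨ht, -⟩ | ⟨-, hc⟩) hE
    · exact absurd (hroot.symm.trans ht) (by decide)
    · obtain ⟨β, J, hβ, hJ, -, hav, hs, hs'⟩ := sides j s s' hreg
      rw [someNear_iff hβ] at hE
      rw [allNear_iff hβ]
      obtain ⟨t, ht, htJ⟩ := (hE.and_eventually hs').exists
      obtain rfl : c = 4 := Fin.ext hc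
      have := subset_interior_of_meets hJ (hav none) ⟨_, htJ, subset_closure ht⟩
      exact hs.mono fun u hu => C.piece_sub none (interior_subset (this hu))
  · intro _ j s s' c hreg _ hn4 hE
    obtain ⟨β, J, hβ, hJ, hJo, hav, hs, hs'⟩ := sides j s s' hreg
    rw [someNear_iff hβ] at hE hn4
    rw [allNear_iff hβ]
    obtain ⟨t, ht, htJ⟩ := (hE.and_eventually hs').exists
    have noFour : ∀ u ∈ J, u ∉ interior (C.circ 4) := fun u hu hu4 => hn4 (hs.frequently.mono
      fun w hw => interior_mono (C.piece_sub none)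
        (subset_interior_of_meets hJ (hav none) ⟨u, hu, subset_closure hu4⟩ hw))
    obtain ⟨u, ⟨huc, huJ⟩, hu4⟩ :
        ∃ u, u ∈ interior (C.circ c) ∩ J ∧ u ∉ C.circ 4 := by
      by_contra hno
      push Not at hno
      exact noFour _ htJ (interior_maximal (fun w hw => hno w hw) (isOpen_interior.inter hJo)
        ⟨ht, htJ⟩)
    have := subset_interior_of_meets hJ (hav (some c)) ⟨u, huJ, subset_closure ⟨huc, hu4⟩⟩
    exact hs.mono fun w hw => C.piece_sub (some c) (interior_subset (this hw))

end QuadNormal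

end Cover

end Vale.Agent.P032
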