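import Vale.Agent.P032.Main.Angles
import Vale.Agent.P032.Cert.Data.Five

/-!
P032: no point is inside three classes or on the edge of all five.
-/

namespace Vale.Agent.P032

open Set Filter Topology Metric Complex ComplexConjugate Cert

lemma dist_spin_third (t : ℝ) : dist (spin (t + Real.pi / 3)) (spin t) = 1 := by
  rw [dist_eq_norm, spin_add, spin_third, show spin t * Cover.sixth - spin t =
    spin t * -(1 - Cover.sixth) by ring, norm_mul, norm_neg, norm_spin, Cover.norm_one_sub_sixth,
    one_mul]

lemma dist_spin_sub_third (t : ℝ) : dist (spin (t - Real.pi / 3)) (spin t) = 1 := by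
  have h := dist_spin_third (t - Real.pi / 3)
  rw [sub_add_cancel] at h
  rwa [dist_comm]

lemma spin_neighbours (t : ℝ) : spin (t + Real.pi / 3) ≠ spin (t - Real.pi / 3) ∧
    spin (t + Real.pi / 3) + spin (t - Real.pi / 3) ≠ 2 * spin t := by
  have hne : spin t ≠ 0 := norm_ne_zero_iff.1 (by rw [norm_spin]; norm_num)
  have h3 : spin (-(Real.pi / 3)) = conj Cover.sixth := by
    apply Complex.ext
    · rw [spin, Complex.exp_ofReal_mul_I_re, Real.cos_neg, Real.cos_pi_div_three]
      simp [Cover.sixth]
    · rw [spin, Complex.exp_ofReal_mul_I_im, Real.sin_neg, Real.sin_pi_div_three]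
      simp [Cover.sixth]
  rw [sub_eq_add_neg t, spin_add, spin_add, spin_third, h3]
  refine ⟨fun h => ?_, fun h => ?_⟩
  · have := congrArg Complex.im (mul_left_cancel₀ hne h)
    simp [Cover.sixth] at this
    linarith [Real.sqrt_pos.2 (show (0 : ℝ) < 3 by norm_num)]
  · rw [← mul_add, mul_comm 2 (spin t)] at h
    have := congrArg Complex.re (mul_left_cancel₀ hne h)
    simp [Cover.sixth] at this
    norm_num at this

/-- Hypotheses on the extra clauses, one at a time. -/
lemma given_of {C : Cover} {X : Ctx} {τ : Bool → ℝ}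
    (h : ∀ g ∈ X.given, ∃ l ∈ g, Holds (Val C X τ) l) :
    ∀ k < X.given.length, ∃ l ∈ X.given.getD k [], Holds (Val C X τ) l := fun k hk => by
  rw [List.getD_eq_getElem _ _ hk]; exact h _ (List.getElem_mem hk)

/-- The renaming sending each colour to the listed one. -/
noncomputable def colourPerm (f : Fin 5 → Fin 5) (h : Function.Injective f) : Equiv.Perm (Fin 5) :=
  Equiv.ofBijective f (Finite.injective_iff_bijective.1 h)

@[simp] lemma colourPerm_apply (f : Fin 5 → Fin 5) (h : Function.Injective f) (c : Fin 5) :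
    colourPerm f h c = f c := rfl

lemma exists_last : ∀ a b c d : Fin 5, [a, b, c, d].Nodup →
    ∃ e, Function.Injective ![a, b, c, d, e] := by decide

lemma exists_last_two : ∀ a b c : Fin 5, [a, b, c].Nodup →
    ∃ d e, Function.Injective ![a, b, c, d, e] := by decide

namespace Cover

variable (C : Cover)

/-- No point lies in three of the open classes. -/
theorem not_inside_three {p : ℂ} {i j k : Fin 5} (hij : i ≠ j) (hik : i ≠ k) (hjk : j ≠ k)
    (hi : p ∈ C.U i) (hj : p ∈ C.U j) (hk : p ∈ C.U k) : False := by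
  set D := C.map (move p 0) with hD
  have h0 : ∀ c, p ∈ C.U c → (0 : ℂ) ∈ D.U c := fun c hc => by
    rw [hD, C.mem_map_U]; simpa using hc
  obtain ⟨d, e, hde, hcol⟩ : ∃ d e : Fin 5, d ≠ e ∧ ∀ c, c = i ∨ c = j ∨ c = k ∨ c = d ∨ c = e := by
    revert hij hik hjk; clear * -; revert i j k; decide
  have only : ∀ t c, t ∈ D.circ c → c = d ∨ c = e := fun t c ht => by
    have hfree : ∀ x, p ∈ C.U x → c ≠ x := fun x hx hcx =>
      D.dist_ne_one (h0 x hx) (hcx ▸ ht) (by rw [dist_comm, dist_zero_right, norm_spin])
    rcases hcol c with rfl | rfl | rfl | h | h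
    · exact absurd rfl (hfree _ hi)
    · exact absurd rfl (hfree _ hj)
    · exact absurd rfl (hfree _ hk)
    · exact Or.inl h
    · exact Or.inr h
  have cover : ∀ t, t ∈ D.circ d ∨ t ∈ D.circ e := fun t => by
    obtain ⟨c, hc⟩ := D.exists_mem_K (spin t)
    rcases only t c hc with rfl | rfl
    · exact Or.inl hc
    · exact Or.inr hc
  have inU : ∀ t a b, (∀ c, t ∈ D.circ c → c = a ∨ c = b) → t ∉ D.circ b → spin t ∈ D.U a :=
    fun t a b hab hb => by
      by_contra hU
      by_cases hI : D.Inside (spin t)
      · obtain ⟨c, hc⟩ := hI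
        rcases hab c (D.subset_K c hc) with rfl | rfl
        · exact hU hc
        · exact hb (D.subset_K _ hc)
      · obtain ⟨c, hca, hc⟩ := D.exists_other hI a
        rcases hab c hc with rfl | rfl
        · exact hca rfl
        · exact hb hc
  have swap : ∀ t, t ∈ D.circ d → t ∈ D.circ e → False := by
    intro t hd he
    have hnI : ¬ D.Inside (spin t) := by
      rintro ⟨c, hc⟩
      have hne : ∀ u, dist (spin u) (spin t) = 1 → u ∉ D.circ c := fun u hu hm =>
        D.dist_ne_one hc hm (by rwa [dist_comm])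
      have hu := hne _ (dist_spin_third t)
      rcases only t c (D.subset_K c hc) with rfl | rfl
      · exact D.dist_ne_one (inU _ e c (fun x hx => (only _ x hx).symm) hu) he (dist_spin_third t)
      · exact D.dist_ne_one (inU _ d c (only _) hu) hd (dist_spin_third t)
    exact D.two_colour hnI (fun c hc => only t c hc) (cover (t + Real.pi / 3))
      (cover (t - Real.pi / 3)) (by rw [dist_comm]; exact dist_spin_third t)
      (by rw [dist_comm]; exact dist_spin_sub_third t) (spin_neighbours t).1 (spin_neighbours t).2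
  obtain ⟨t, -, ht⟩ : ((univ : Set ℝ) ∩ (D.circ d ∩ D.circ e)).Nonempty := by
    refine isPreconnected_closed_iff.1 isPreconnected_univ _ _ (D.isClosed_circ d)
      (D.isClosed_circ e) (fun t _ => cover t) ?_ ?_ <;> rw [univ_inter] <;> by_contra h
    · have hall : ∀ t, spin t ∈ D.U e := fun t => inU t e d (fun c hc => (only t c hc).symm)
        fun hm => h ⟨t, hm⟩
      exact D.dist_ne_one (hall _) (D.subset_K e (hall 0)) (dist_spin_third 0)
    · have hall : ∀ t, spin t ∈ D.U d := fun t => inU t d e (only t) fun hm => h ⟨t, hm⟩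
      exact D.dist_ne_one (hall _) (D.subset_K d (hall 0)) (dist_spin_third 0)
  exact swap t ht.1 ht.2

/-- No boundary point lies in all five closed classes. -/
theorem not_five {p : ℂ} (hp : ¬ C.Inside p) : ∃ c, p ∉ C.K c := by
  by_contra hall
  push Not at hall
  set D := C.map (move p 0) with hD
  have hK : ∀ c, (0 : ℂ) ∈ D.K c := fun c => by
    rw [hD, C.mem_map_K]; simpa using hall c
  have hI : ¬ D.Inside 0 := by rw [hD, C.inside_map]; simpa using hp
  obtain ⟨τ, hg, -⟩ := exists_good D Five.ctx (fun _ => univ) (fun _ => isOpen_univ)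
    (fun _ => Frequently.of_forall fun _ => mem_univ _)
  have two : ∀ j, (Five.ctx.pt j).unit = true →
      ∃ x y, x ≠ y ∧ AtSample D Five.ctx τ 0 j true x ∧ AtSample D Five.ctx τ 0 j true y := by
    intro j hj
    obtain ⟨x, hx⟩ := D.exists_mem_K (path Five.ctx 0 j true (τ true))
    by_contra hno
    refine false_of_single (dist_path 0 true (τ true) hj) (by rw [cen_zero]; exact hK x)
      fun c hc hcK => hno ⟨c, x, hc, hcK, hx⟩
  obtain ⟨a, b, hab, ha, hb⟩ := two 0 (by decide)
  obtain ⟨c, d, hcd, hc, hd⟩ := two 1 (by decide)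
  have apart : ∀ x, AtSample D Five.ctx τ 0 0 true x → AtSample D Five.ctx τ 0 1 true x → False :=
    fun x h h' => exact_sound (i := 0) (i' := 0) (j := 0) (j' := 1) (c := x) hg
      (show ok Five.ctx (.exact 0 0 0 1 true 0) = true by decide) h h'
  obtain ⟨e, he⟩ := exists_last a b c d (by
    simp only [List.nodup_cons, List.mem_cons, List.not_mem_nil, or_false, not_or, not_false_iff,
      List.nodup_nil, and_true]
    exact ⟨⟨hab, fun h => apart a ha (h ▸ hc), fun h => apart a ha (h ▸ hd)⟩,
      ⟨fun h => apart b hb (h ▸ hc), fun h => apart b hb (h ▸ hd)⟩, hcd⟩)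
  set σ := colourPerm _ he
  refine Five.refuted (hg.perm σ) ⟨fun x => ?_, ?_, fun h => absurd rfl h,
    fun h => absurd h (by decide), ?_, fun h => absurd h (by decide), given_of ?_⟩
  · simpa [D.mem_perm_K, Five.ctx, Root.has] using hK (σ x)
  · rwa [D.inside_perm]
  · rintro j s s' x - (⟨h, -⟩ | ⟨h, -⟩) <;> exact absurd h (by decide)
  · simp only [Five.ctx, List.forall_mem_cons, List.not_mem_nil, IsEmpty.forall_iff, implies_true,
      and_true, List.mem_singleton, exists_eq_left, forall_eq, holds_pos, val_vS]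
    exact ⟨ha, hb, hc, hd⟩

end Cover

end Vale.Agent.P032
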