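import Vale.Agent.P032.Main.Changes
import Vale.Agent.P032.Cert.Data.Switch012

/-!
P032: the rim about a point of exactly four classes.
-/

namespace Vale.Agent.P032

open Set Filter Topology Metric Complex ComplexConjugate Cert

namespace Cover

variable {C : Cover}

lemma exists_swap : ∀ x : Fin 5, x.val < 4 →
    (∀ c : Fin 5, (Equiv.swap 3 x c).val < 4 ↔ c.val < 4) ∧ Equiv.swap 3 x 3 = x ∧
      Equiv.swap 3 x 4 = 4 := by decide

/-- A rim node does not have the last colour. -/
lemma node_no_four (hn : QuadNormal C) (k : ℤ) (hI : ¬ C.Inside (spin (k * (Real.pi / 3))))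
    (h3 : 3 ≤ (cols C (spin (k * (Real.pi / 3)))).card) : spin (k * (Real.pi / 3)) ∉ C.K 4 := by
  intro h4
  obtain ⟨x, hx⟩ := C.not_five hI
  have hxlt : x.val < 4 := by
    by_contra hlt
    have : x = 4 := by revert hlt; clear * -; revert x; decide
    exact hx (this ▸ h4)
  have hcard : (cols C (spin (k * (Real.pi / 3)))).card = 4 := by
    have h := Finset.card_lt_card (Finset.ssubset_univ_iff.2
      (fun e => hx (mem_cols.1 (by rw [e]; exact Finset.mem_univ x)) :
        cols C (spin (k * (Real.pi / 3))) ≠ Finset.univ))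
    have := hn.three _ hI
    simp only [Finset.card_univ, Fintype.card_fin] at h
    omega
  have hK : ∀ c, spin (k * (Real.pi / 3)) ∈ C.K c ↔ c ≠ x := fun c =>
    (cols_eq_compl (l := {x}) (by simp [hcard]) (by simpa using hx) c).trans (by simp)
  obtain ⟨hσ, hσ3, -⟩ := exists_swap x hxlt
  set E := (C.map (move 0 ((k : ℝ) * (Real.pi / 3)))).perm (Equiv.swap 3 x) with hE
  have hnE : QuadNormal E := (hn.rot k).perm' _ hσ
  have e1 : cen 1 = spin (((0 : ℕ) : ℝ) * (Real.pi / 3)) := cen_succ 0 (by norm_num)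
  simp only [Nat.cast_zero, zero_mul, spin_zero] at e1
  have hEK : ∀ c, (1 : ℂ) ∈ E.K c ↔ c ≠ 3 := fun c => by
    rw [hE, Cover.mem_perm_K, C.mem_map_K, move_apply, mul_one, zero_add]
    refine (hK _).trans (not_congr ⟨fun h => ?_, fun h => by rw [h, hσ3]⟩)
    exact (Equiv.swap 3 x).injective (h.trans hσ3.symm)
  have hN : ¬ E.Inside 1 ∧ 3 ≤ (cols E 1).card := by
    rw [hE, Cover.inside_perm, C.inside_map, card_cols_perm, cols_map, move_apply, mul_one,
      zero_add]
    exact ⟨hI, h3⟩
  obtain ⟨τ, hg, -⟩ := exists_good E Switch012.ctx (fun _ => univ) (fun _ => isOpen_univ)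
    fun _ => Frequently.of_forall fun _ => mem_univ _
  refine Switch012.refuted hg (hnE.hyp rfl (by decide) ?_)
  simp only [Switch012.ctx, List.forall_mem_cons, List.not_mem_nil, IsEmpty.forall_iff,
    implies_true, and_true, List.mem_singleton, exists_eq_left, forall_eq, holds_pos, holds_neg,
    val_vN, val_vM]
  simp [e1, hEK, hN]

/-- The pieces cannot all be constant near a change. -/
lemma false_of_constant {t : ℝ} (ht : t ∈ C.changes₀)
    (hJ : ∀ o, (∀ᶠ u in 𝓝 t, u ∈ C.piece o) ∨ ∀ᶠ u in 𝓝 t, u ∉ C.piece o) : False := by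
  obtain ⟨o, ho⟩ := mem_iUnion.1 ht
  rcases hJ o with h | h
  · exact ho.2 (mem_interior_iff_mem_nhds.2 h)
  · have : t ∈ (C.piece o) := (C.isClosed_piece o).frontier_subset ho
    exact h.self_of_nhds this

lemma no_change_four (h0 : (0 : ℝ) ∈ C.changes₀) : (0 : ℝ) ∉ interior (C.circ 4) := by
  intro h
  refine false_of_constant h0 fun o => ?_
  cases o with
  | none =>
    exact Or.inl ((isOpen_interior.eventually_mem h).mono fun u hu => subset_closure hu)
  | some c =>
    refine Or.inr ((isOpen_interior.eventually_mem h).mono fun u hu hm => ?_)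
    obtain ⟨w, hw, hw'⟩ := mem_closure_iff.1 hm _ isOpen_interior hu
    exact hw'.2 (interior_subset hw)

/-- The change is at a node with the first four colours, and the last colour is absent near it. -/
lemma change_node (hn : QuadNormal C) (h0 : (0 : ℝ) ∈ C.changes₀) :
    ¬ C.Inside 1 ∧ 3 ≤ (cols C 1).card ∧ (∀ c, (1 : ℂ) ∈ C.K c ↔ c ≠ 4) ∧
      ∀ᶠ t in 𝓝 (0 : ℝ), t ∉ C.circ 4 := by
  have hd : dist (1 : ℂ) 0 = 1 := by simp
  have hI : ¬ C.Inside 1 := by
    rintro ⟨c, hc⟩
    by_cases hc4 : c.val < 4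
    · exact C.dist_ne_one hc ((hn.root_K c).2 hc4) hd
    · obtain rfl : c = 4 := by revert hc4; clear * -; revert c; decide
      refine no_change_four h0 (mem_interior_iff_mem_nhds.2 ?_)
      have : ∀ᶠ t in 𝓝 (0 : ℝ), spin t ∈ C.U 4 :=
        ((continuous_spin.tendsto 0).eventually ((C.isOpen 4).eventually_mem (by rwa [spin_zero])))
      exact this.mono fun t ht => C.subset_K 4 ht
  have hcard : 3 ≤ (cols C 1).card := by
    by_contra hlt
    obtain ⟨a, b, hab, he⟩ := Finset.card_eq_two.1
      (show (cols C 1).card = 2 by have := two_le_card_cols hI; omega)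
    have hnear : ∀ᶠ t in 𝓝 (0 : ℝ), ∀ c, c ≠ a → c ≠ b → t ∉ C.circ c := by
      refine eventually_all.2 fun c => ?_
      by_cases hc : c = a ∨ c = b
      · exact Eventually.of_forall fun _ h1 h2 => absurd hc (not_or.2 ⟨h1, h2⟩)
      · refine ((C.isClosed_circ c).isOpen_compl.eventually_mem ?_).mono fun _ ht _ _ => ht
        intro hm
        have : c ∈ cols C 1 := mem_cols.2 (by simpa [Cover.circ, spin_zero] using hm)
        rw [he] at this
        simp at this
        exact hc this
    have single : ∀ t x y, (∀ c, c ≠ x → c ≠ y → t ∉ C.circ c) → x.val < 4 → t ∈ C.circ y := by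
      intro t x y h hx
      by_contra hy
      refine false_of_single (x := x) (w := spin t) (by rw [dist_zero_right, norm_spin])
        ((hn.root_K x).2 hx) fun c hc => ?_
      by_cases hcy : c = y
      · exact hcy ▸ hy
      · exact h c hc hcy
    by_cases h4 : a = 4 ∨ b = 4
    · refine no_change_four h0 (mem_interior_iff_mem_nhds.2 (hnear.mono fun t ht => ?_))
      rcases h4 with rfl | rfl
      · exact single t b 4 (fun c h1 h2 => ht c h2 h1) (by
          revert hab; clear * -; revert b; decide)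
      · exact single t a 4 ht (by revert hab; clear * -; revert a; decide)
    · push Not at h4
      have ha : a.val < 4 := by have := h4.1; revert this; clear * -; revert a; decide
      have hb : b.val < 4 := by have := h4.2; revert this; clear * -; revert b; decide
      obtain ⟨r, hr, hball⟩ := Metric.eventually_nhds_iff.1 hnear
      have hmem : ∀ t ∈ Metric.ball (0 : ℝ) r, t ∈ C.circ a ∧ t ∈ C.circ b ∧ t ∉ C.circ 4 :=
        fun t ht => ⟨single t b a (fun c h1 h2 => hball ht c h2 h1) hb,
          single t a b (fun c h1 h2 => hball ht c h1 h2) ha, hball ht 4 h4.1.symm h4.2.symm⟩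
      have hev := Metric.ball_mem_nhds (0 : ℝ) hr
      refine false_of_constant h0 fun o => ?_
      cases o with
      | none =>
        refine Or.inr (Eventually.mono hev fun u hu hm => ?_)
        exact (hmem u hu).2.2 (C.piece_sub none hm)
      | some c =>
        by_cases hc : c = a ∨ c = b
        · refine Or.inl (Eventually.mono hev fun u hu => subset_closure ⟨?_, (hmem u hu).2.2⟩)
          refine interior_maximal (fun w hw => ?_) Metric.isOpen_ball hu
          rcases hc with rfl | rfl
          · exact (hmem w hw).1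
          · exact (hmem w hw).2.1
        · refine Or.inr (Eventually.mono hev fun u hu hm => ?_)
          exact hball hu c (fun h => hc (Or.inl h)) (fun h => hc (Or.inr h))
            (C.piece_sub (some c) hm)
  have h4 : (1 : ℂ) ∉ C.K 4 := by
    have := node_no_four hn 0
    simp only [Int.cast_zero, zero_mul, spin_zero] at this
    exact this hI hcard
  refine ⟨hI, hcard, ?_, (C.isClosed_circ 4).isOpen_compl.eventually_mem
    (show (0 : ℝ) ∉ C.circ 4 by simpa [Cover.circ, spin_zero] using h4)⟩
  have hc4 : (cols C 1).card = 4 := by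
    obtain ⟨x, hx⟩ := C.not_five hI
    have h := Finset.card_lt_card (Finset.ssubset_univ_iff.2
      (fun e => hx (mem_cols.1 (by rw [e]; exact Finset.mem_univ x)) : cols C 1 ≠ Finset.univ))
    have := hn.three _ hI
    simp only [Finset.card_univ, Fintype.card_fin] at h
    omega
  exact fun c => (cols_eq_compl (l := {4}) (by simp [hc4]) (by simpa using h4) c).trans (by simp)

lemma exists_before_last : ∀ a b c : Fin 5, [a, b, c].Nodup → a ≠ 4 → b ≠ 4 → c ≠ 4 →
    ∃ d, Function.Injective ![a, b, c, d, 4] := by decide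

lemma exists_names {R L : Finset (Fin 5)} (hR : R.card = 2) (hL : L.card = 2) (hne : R ≠ L)
    (h4R : 4 ∉ R) (h4L : 4 ∉ L) :
    ∃ a b c d : Fin 5, Function.Injective ![a, b, c, d, 4] ∧ R = {a, b} ∧ a ∉ L ∧ c ∈ L := by
  obtain ⟨a, haR, haL⟩ := Finset.not_subset.1 fun h =>
    hne (Finset.eq_of_subset_of_card_le h (by omega))
  obtain ⟨c, hcL, hcR⟩ := Finset.not_subset.1 fun h =>
    hne (Finset.eq_of_subset_of_card_le (s := L) (t := R) h (by omega)).symm
  obtain ⟨b, hb⟩ := Finset.card_eq_one.1
    (show (R.erase a).card = 1 by rw [Finset.card_erase_of_mem haR, hR])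
  have hRab : R = {a, b} := by rw [← Finset.insert_erase haR, hb]
  have hba : b ≠ a := Finset.ne_of_mem_erase (hb ▸ Finset.mem_singleton_self b)
  have hbR : b ∈ R := by rw [hRab]; simp
  obtain ⟨d, hd⟩ := exists_before_last a b c
    (by simp [hba.symm, show a ≠ c from fun e => hcR (e ▸ haR),
      show b ≠ c from fun e => hcR (e ▸ hbR)])
    (fun e => h4R (e ▸ haR)) (fun e => h4R (e ▸ hbR)) (fun e => h4L (e ▸ hcL))
  exact ⟨a, b, c, d, hd, hRab, haL, hcL⟩

lemma exists_fourth : ∀ a b c : Fin 5, [a, b, c].Nodup → a ≠ 4 → b ≠ 4 → c ≠ 4 →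
    ∃ x : Fin 5, ∀ y, y ≠ x → y = a ∨ y = b ∨ y = c ∨ y = 4 := by decide

/-- Samples on the two sides of a change, with named colours. -/
lemma exists_pair_samples (hn : QuadNormal C) (h0 : (0 : ℝ) ∈ C.changes₀) (X : Ctx)
    (hp : X.pt 0 = ⟨36, 0, 0, 0⟩) : ∃ τ, ∃ σ : Equiv.Perm (Fin 5),
      (∀ c : Fin 5, (σ c).val < 4 ↔ c.val < 4) ∧ σ 4 = 4 ∧ Good (C.perm σ) X τ ∧
      ¬ AtSample (C.perm σ) X τ 0 0 false 4 ∧ ¬ AtSample (C.perm σ) X τ 0 0 true 4 ∧
      AtSample (C.perm σ) X τ 0 0 true 0 ∧ AtSample (C.perm σ) X τ 0 0 true 1 ∧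
      ¬ AtSample (C.perm σ) X τ 0 0 true 2 ∧ ¬ AtSample (C.perm σ) X τ 0 0 true 3 ∧
      ¬ AtSample (C.perm σ) X τ 0 0 false 0 ∧ AtSample (C.perm σ) X τ 0 0 false 2 := by
  obtain ⟨-, -, -, hfree⟩ := change_node hn h0
  obtain ⟨ρ, hρ, hρball⟩ := Metric.eventually_nhds_iff.1 hfree
  obtain ⟨o, ho⟩ := mem_iUnion.1 h0
  obtain ⟨c, rfl⟩ : ∃ c, o = some c := by
    cases o with
    | some c => exact ⟨c, rfl⟩
    | none =>
      exfalso
      exact hfree.self_of_nhds (C.piece_sub none ((C.isClosed_piece none).frontier_subset ho))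
  obtain ⟨r, hr, hright⟩ := mem_nhdsGT_iff_exists_Ioo_subset.1 hn.calm.right
  have hr' : (0 : ℝ) < r := hr
  have hav : ∀ t ∈ Ioo (0 : ℝ) r, t ∉ frontier (C.piece (some c)) := fun t ht hf =>
    hright ht (C.mem_changes_of_frontier hf)
  set A : Prop := Ioo (0 : ℝ) r ⊆ interior (C.piece (some c)) with hA
  have hnotA : ¬ A → ∀ t ∈ Ioo (0 : ℝ) r, t ∉ C.piece (some c) := fun hna t ht hm =>
    hna (subset_interior_of_meets isPreconnected_Ioo hav ⟨t, ht, hm⟩)
  let W : Bool → Set ℝ := fun s => Iio ρ ∩ bif s then Iio r else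
    {t | (A ∧ -t ∉ C.piece (some c)) ∨ (¬ A ∧ -t ∈ interior (C.circ c) \ C.circ 4)}
  have hb : (X.pt 0).val = spin 0 := by rw [hp]; exact val_dirs0
  have hW : ∀ s, IsOpen (W s) := by
    intro s
    refine isOpen_Iio.inter ?_
    cases s with
    | true => exact isOpen_Iio
    | false =>
      by_cases h : A
      · simp only [h, true_and, not_true, false_and, or_false, cond_false]
        exact (C.isClosed_piece _).isOpen_compl.preimage continuous_neg
      · simp only [h, false_and, not_false_iff, true_and, false_or, cond_false]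
        exact (isOpen_interior.sdiff (C.isClosed_circ 4)).preimage continuous_neg
  have hf : ∀ s, ∃ᶠ t in 𝓝[>] (0 : ℝ), t ∈ W s := by
    intro s
    cases s with
    | true =>
      exact Eventually.frequently (Eventually.and
        ((eventually_lt_nhds hρ).filter_mono nhdsWithin_le_nhds)
        ((eventually_lt_nhds hr').filter_mono nhdsWithin_le_nhds))
    | false =>
      by_contra hno
      obtain ⟨q, hq, hqs⟩ := mem_nhdsGT_iff_exists_Ioo_subset.1 (not_frequently.1 hno)
      have hq' : (0 : ℝ) < q := hq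
      have hm : (0 : ℝ) < min q ρ := lt_min hq' hρ
      have hleft : ∀ t ∈ Ioo (-min q ρ) 0, ¬ ((A ∧ t ∉ C.piece (some c)) ∨
          (¬ A ∧ t ∈ interior (C.circ c) \ C.circ 4)) := fun t ht h => by
        have h1 := ht.1
        refine hqs (show -t ∈ Ioo 0 q from ⟨by linarith [ht.2], by linarith [min_le_left q ρ]⟩)
          ⟨show -t < ρ by linarith [min_le_right q ρ], ?_⟩
        show (A ∧ - -t ∉ C.piece (some c)) ∨ _
        simpa [neg_neg] using h
      have hnhds := Ioo_mem_nhds (neg_neg_iff_pos.2 hm) (lt_min hr' hm)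
      by_cases h : A
      · refine ho.2 (mem_interior_iff_mem_nhds.2 (mem_of_superset hnhds fun t ht => ?_))
        rcases lt_trichotomy t 0 with hlt | rfl | hgt
        · by_contra hn
          exact hleft t ⟨ht.1, hlt⟩ (Or.inl ⟨h, hn⟩)
        · exact (C.isClosed_piece _).frontier_subset ho
        · exact interior_subset (h ⟨hgt, ht.2.trans_le (min_le_left _ _)⟩)
      · have hS : IsOpen (interior (C.circ c) \ C.circ 4) :=
          isOpen_interior.sdiff (C.isClosed_circ 4)
        obtain ⟨u, hu, hu'⟩ := mem_closure_iff_nhds.1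
          ((C.isClosed_piece _).frontier_subset ho) _ hnhds
        obtain ⟨ε, hε, hball⟩ := Metric.isOpen_iff.1 (hS.inter isOpen_Ioo) u ⟨hu', hu⟩
        obtain ⟨w, hw, hw0⟩ : ∃ w ∈ Metric.ball u ε, w ≠ 0 := by
          by_cases hu0 : u = 0
          · refine ⟨u + ε / 2, ?_, by linarith⟩
            rw [Metric.mem_ball, Real.dist_eq, add_sub_cancel_left, abs_of_pos (half_pos hε)]
            linarith
          · exact ⟨u, Metric.mem_ball_self hε, hu0⟩
        obtain ⟨hwS, hwI⟩ := hball hw
        rcases lt_or_gt_of_ne hw0 with hlt | hgt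
        · exact hleft w ⟨hwI.1, hlt⟩ (Or.inr ⟨h, hwS⟩)
        · exact hnotA h w ⟨hgt, hwI.2.trans_le (min_le_left _ _)⟩ (subset_closure hwS)
  obtain ⟨τ, hg, hτ⟩ := exists_good C X W hW hf
  have hpath : ∀ s, path X 0 0 s (τ s) = spin (dir s * τ s) := fun s => by
    rw [path_spin hb, zero_add]
  have hsmall : ∀ s, dist (dir s * τ s) 0 < ρ := fun s => by
    have h1 : τ s < ρ := (hτ s).1
    have h2 := hg.pos s
    rw [Real.dist_eq, sub_zero, abs_mul, abs_of_pos h2]
    cases s <;> simpa [dir] using h1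
  have no4 : ∀ s, ¬ AtSample C X τ 0 0 s 4 := fun s h => by
    refine hρball (hsmall s) ?_
    show spin _ ∈ C.K 4
    rw [← hpath]; exact h
  have inF : ∀ s x, AtSample C X τ 0 0 s x → dir s * τ s ∈ C.piece (some x) := fun s x h => by
    refine subset_closure ⟨mem_interior_iff_mem_nhds.2 ?_, hρball (hsmall s)⟩
    refine Eventually.mono (sample_eventually hg h) fun u hu => ?_
    rwa [cen_zero, hb, spin_zero, orbit_zero_one] at hu
  classical
  let col : Bool → Finset (Fin 5) := fun s => Finset.univ.filter fun x => AtSample C X τ 0 0 s x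
  have hcol : ∀ s x, x ∈ col s ↔ AtSample C X τ 0 0 s x := fun s x => by simp [col]
  have hunit : (X.pt 0).unit = true := by rw [hp]; decide
  have hdist : ∀ s, dist (path X 0 0 s (τ s)) (cen 0) = 1 := fun s => dist_path 0 s _ hunit
  have htwo : ∀ s, (col s).card = 2 := by
    intro s
    have h4 : ∀ x ∈ col s, x ≠ 4 := fun x hx e => no4 s (e ▸ (hcol s x).1 hx)
    have hlo : 2 ≤ (col s).card := by
      obtain ⟨x, hx⟩ := C.exists_mem_K (path X 0 0 s (τ s))
      have hxc : x ∈ col s := (hcol s x).2 hx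
      have hx4 : x.val < 4 := by have := h4 x hxc; revert this; clear * -; revert x; decide
      refine Finset.one_lt_card.2 ?_
      by_contra hno
      refine false_of_single (hdist s) (by rw [cen_zero]; exact (hn.root_K x).2 hx4)
        fun y hy hm => hno ⟨y, (hcol s y).2 hm, x, hxc, hy⟩
    by_contra hne
    obtain ⟨T, hT, hT3⟩ := Finset.exists_subset_card_eq (show 3 ≤ (col s).card by omega)
    obtain ⟨a, b, d, hab, had, hbd, rfl⟩ := Finset.card_eq_three.1 hT3
    obtain ⟨x, hx⟩ := exists_fourth a b d (by simp [hab, had, hbd]) (h4 a (hT (by simp)))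
      (h4 b (hT (by simp))) (h4 d (hT (by simp)))
    refine anti_sound hg (i := 0) (j := 0) (s := s) (x := x) (cen_zero.symm ▸ hn.root_not) hunit
      fun y hy => ?_
    have line : (X.pt 0).sameLine (X.pt 0) = true := by simp [Pt.sameLine, Pt.same_iff]
    rcases hx y hy with e | e | e | e
    · exact Or.inr ⟨0, line, (hcol s y).1 (hT (by simp [e]))⟩
    · exact Or.inr ⟨0, line, (hcol s y).1 (hT (by simp [e]))⟩
    · exact Or.inr ⟨0, line, (hcol s y).1 (hT (by simp [e]))⟩
    · refine Or.inl ?_
      rw [cen_zero, hn.root_K, e]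
      decide
  have hne : col true ≠ col false := by
    intro he
    have htr : dir true * τ true ∈ Ioo (0 : ℝ) r := by
      have h1 : τ true < r := (hτ true).2
      simpa [dir] using And.intro (hg.pos true) h1
    rcases (hτ false).2 with ⟨hAyes, hl⟩ | ⟨hAno, hl⟩
    · have hR : AtSample C X τ 0 0 true c := hg.all _ _ _ _ ((allNear_iff hb true c).2 (by
        filter_upwards [Ioo_mem_nhdsGT hr'] with t ht
        exact C.piece_sub (some c) (interior_subset (hAyes (by simpa [dir] using ht)))))
      have hL : AtSample C X τ 0 0 false c := (hcol _ _).1 (he ▸ (hcol _ _).2 hR)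
      exact hl (by simpa [dir] using inF false c hL)
    · have hL : AtSample C X τ 0 0 false c := by
        show _ ∈ C.K c
        rw [hpath]
        exact interior_subset (s := C.circ c) (by simpa [dir] using hl.1)
      have hR : AtSample C X τ 0 0 true c := (hcol _ _).1 (he.symm ▸ (hcol _ _).2 hL)
      exact hnotA hAno _ htr (inF true c hR)
  obtain ⟨a, b, d, e, hinj, hR, haL, hdL⟩ := exists_names (htwo true) (htwo false)
    hne (fun h => no4 true ((hcol _ _).1 h)) (fun h => no4 false ((hcol _ _).1 h))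
  have hlt : ∀ x : Fin 5, (![a, b, d, e, 4] x).val < 4 ↔ x.val < 4 := by
    revert hinj; clear * -; revert a b d e; decide
  have hperm : ∀ s x, AtSample (C.perm (colourPerm _ hinj)) X τ 0 0 s x ↔
      ![a, b, d, e, 4] x ∈ col s := fun s x => (hcol s _).symm
  refine ⟨τ, colourPerm _ hinj, hlt, rfl, hg.perm _, ?_⟩
  simp only [hperm, hR]
  have hne' : ∀ i j : Fin 5, i ≠ j → ![a, b, d, e, 4] i ≠ ![a, b, d, e, 4] j :=
    fun i j hij h => hij (hinj h)
  refine ⟨fun h => no4 false ((hcol false 4).1 h), ?_, ?_, ?_, ?_, ?_, haL, hdL⟩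
  · simp only [Finset.mem_insert, Finset.mem_singleton, not_or]
    exact ⟨hne' 4 0 (by decide), hne' 4 1 (by decide)⟩
  · simp
  · simp
  · simp only [Finset.mem_insert, Finset.mem_singleton, not_or]
    exact ⟨hne' 2 0 (by decide), hne' 2 1 (by decide)⟩
  · simp only [Finset.mem_insert, Finset.mem_singleton, not_or]
    exact ⟨hne' 3 0 (by decide), hne' 3 1 (by decide)⟩

end Cover

end Vale.Agent.P032
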