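import Vale.Agent.P032.Main.Four
import Vale.Agent.P032.Cert.Data.SameTwo
import Vale.Agent.P032.Cert.Data.SameSix
import Vale.Agent.P032.Cert.Data.SameNN
import Vale.Agent.P032.Cert.Data.SameNP
import Vale.Agent.P032.Cert.Data.SamePN
import Vale.Agent.P032.Cert.Data.SamePP

/-!
P032: no boundary point lies in exactly four closed classes.
-/

namespace Vale.Agent.P032

open Set Filter Topology Metric Complex ComplexConjugate Cert

namespace Cover

variable {C : Cover}

/-- The facts about the rim shared by the last six certificates. -/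
lemma change_rim (hn : QuadNormal C) (h0 : (0 : ℝ) ∈ C.changes₀) :
    (¬ C.Inside (cen 1) ∧ 3 ≤ (cols C (cen 1)).card) ∧ (∀ c, cen 1 ∈ C.K c ↔ c ≠ 4) ∧
      ∀ n : Fin 7, n ≠ 0 →
        ¬ (¬ C.Inside (cen n) ∧ 3 ≤ (cols C (cen n)).card) ∨ cen n ∉ C.K 4 := by
  obtain ⟨hI, h3, hK, -⟩ := change_node hn h0
  have e1 : cen 1 = spin (((0 : ℕ) : ℝ) * (Real.pi / 3)) := cen_succ 0 (by norm_num)
  simp only [Nat.cast_zero, zero_mul, spin_zero] at e1
  refine ⟨e1.symm ▸ ⟨hI, h3⟩, e1.symm ▸ hK, fun n hn0 => ?_⟩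
  obtain ⟨k, hk⟩ := cen_spin n hn0
  rw [hk]
  by_cases hN : ¬ C.Inside (spin (k * (Real.pi / 3))) ∧ 3 ≤ (cols C (spin (k * (Real.pi / 3)))).card
  · exact Or.inr (node_no_four hn k hN.1 hN.2)
  · exact Or.inl hN

/-- A renaming that keeps the last colour keeps the kinds of points. -/
lemma kind_perm (σ : Equiv.Perm (Fin 5)) (p : ℂ) :
    ((C.perm σ).Inside p ↔ C.Inside p) ∧ (cols (C.perm σ) p).card = (cols C p).card :=
  ⟨C.inside_perm σ p, card_cols_perm C σ p⟩

lemma perm_rim {σ : Equiv.Perm (Fin 5)} (h4 : σ 4 = 4) {p : ℂ}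
    (hK : ∀ c, p ∈ C.K c ↔ c ≠ 4) (c : Fin 5) : p ∈ (C.perm σ).K c ↔ c ≠ 4 := by
  rw [C.mem_perm_K, hK]
  exact not_congr ⟨fun h => σ.injective (h.trans h4.symm), fun h => by rw [h, h4]⟩

/-- The case of the certificate `SameTwo`. -/
lemma change_two (hn : QuadNormal C) (h0 : (0 : ℝ) ∈ C.changes₀)
    (hN2 : ¬ C.Inside (cen 2) ∧ 3 ≤ (cols C (cen 2)).card) : False := by
  obtain ⟨hN1, hK1, hnd⟩ := change_rim hn h0
  have d2 := hnd 2 (by decide)
  have d3 := hnd 3 (by decide)
  have d4 := hnd 4 (by decide)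
  have d5 := hnd 5 (by decide)
  have d6 := hnd 6 (by decide)
  obtain ⟨τ, σ, hσ, h4, hg, hs⟩ := exists_pair_samples hn h0 SameTwo.ctx rfl
  refine SameTwo.refuted hg ((hn.perm' σ hσ).hyp rfl (by decide) ?_)
  simp only [SameTwo.ctx] at hs ⊢
  simp only [List.forall_mem_cons, List.not_mem_nil, IsEmpty.forall_iff, implies_true, and_true]
  simp only [List.mem_cons, List.not_mem_nil, or_false, exists_eq_or_imp, exists_eq_left,
    holds_pos, holds_neg, val_vS, val_vN, val_vM, val_vW, val_vP, (kind_perm σ _).1,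
    (kind_perm σ _).2, perm_rim h4 hK1, C.mem_perm_K, h4]
  simp only [hs, d2, d3, d4, d5, d6, not_not, not_true, not_false_iff, and_true, true_and]
  simp only [hN1, hK1, ne_eq, not_true, not_false_iff, or_true, true_or, and_true, true_and, hN2]
  decide

/-- The case of the certificate `SameSix`. -/
lemma change_six (hn : QuadNormal C) (h0 : (0 : ℝ) ∈ C.changes₀)
    (hN6 : ¬ C.Inside (cen 6) ∧ 3 ≤ (cols C (cen 6)).card) : False := by
  obtain ⟨hN1, hK1, hnd⟩ := change_rim hn h0
  have d2 := hnd 2 (by decide)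
  have d3 := hnd 3 (by decide)
  have d4 := hnd 4 (by decide)
  have d5 := hnd 5 (by decide)
  have d6 := hnd 6 (by decide)
  obtain ⟨τ, σ, hσ, h4, hg, hs⟩ := exists_pair_samples hn h0 SameSix.ctx rfl
  refine SameSix.refuted hg ((hn.perm' σ hσ).hyp rfl (by decide) ?_)
  simp only [SameSix.ctx] at hs ⊢
  simp only [List.forall_mem_cons, List.not_mem_nil, IsEmpty.forall_iff, implies_true, and_true]
  simp only [List.mem_cons, List.not_mem_nil, or_false, exists_eq_or_imp, exists_eq_left,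
    holds_pos, holds_neg, val_vS, val_vN, val_vM, val_vW, val_vP, (kind_perm σ _).1,
    (kind_perm σ _).2, perm_rim h4 hK1, C.mem_perm_K, h4]
  simp only [hs, d2, d3, d4, d5, d6, not_not, not_true, not_false_iff, and_true, true_and]
  simp only [hN1, hK1, ne_eq, not_true, not_false_iff, or_true, true_or, and_true, true_and, hN6]
  decide

/-- The case of the certificate `SameNN`. -/
lemma change_nn (hn : QuadNormal C) (h0 : (0 : ℝ) ∈ C.changes₀)
    (hW2 : C.Inside (cen 2)) (hW6 : C.Inside (cen 6))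
    (h3 : ¬ C.Inside (cen 3) ∧ 3 ≤ (cols C (cen 3)).card)
    (h5 : ¬ C.Inside (cen 5) ∧ 3 ≤ (cols C (cen 5)).card) : False := by
  obtain ⟨hN1, hK1, hnd⟩ := change_rim hn h0
  have d2 := hnd 2 (by decide)
  have d3 := hnd 3 (by decide)
  have d4 := hnd 4 (by decide)
  have d5 := hnd 5 (by decide)
  have d6 := hnd 6 (by decide)
  obtain ⟨τ, σ, hσ, h4, hg, hs⟩ := exists_pair_samples hn h0 SameNN.ctx rfl
  refine SameNN.refuted hg ((hn.perm' σ hσ).hyp rfl (by decide) ?_)
  simp only [SameNN.ctx] at hs ⊢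
  simp only [List.forall_mem_cons, List.not_mem_nil, IsEmpty.forall_iff, implies_true, and_true]
  simp only [List.mem_cons, List.not_mem_nil, or_false, exists_eq_or_imp, exists_eq_left,
    holds_pos, holds_neg, val_vS, val_vN, val_vM, val_vW, val_vP, (kind_perm σ _).1,
    (kind_perm σ _).2, perm_rim h4 hK1, C.mem_perm_K, h4]
  simp only [hs, d2, d3, d4, d5, d6, not_not, not_true, not_false_iff, and_true, true_and]
  simp only [hN1, hK1, ne_eq, not_true, not_false_iff, or_true, true_or, and_true, true_and, hW2, hW6, h3, h5]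
  decide

/-- The case of the certificate `SameNP`. -/
lemma change_np (hn : QuadNormal C) (h0 : (0 : ℝ) ∈ C.changes₀)
    (hW2 : C.Inside (cen 2)) (hW6 : C.Inside (cen 6))
    (h3 : ¬ C.Inside (cen 3) ∧ 3 ≤ (cols C (cen 3)).card)
    (h5 : ¬ C.Inside (cen 5) ∧ (cols C (cen 5)).card ≤ 2) : False := by
  obtain ⟨hN1, hK1, hnd⟩ := change_rim hn h0
  have d2 := hnd 2 (by decide)
  have d3 := hnd 3 (by decide)
  have d4 := hnd 4 (by decide)
  have d5 := hnd 5 (by decide)
  have d6 := hnd 6 (by decide)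
  obtain ⟨τ, σ, hσ, h4, hg, hs⟩ := exists_pair_samples hn h0 SameNP.ctx rfl
  refine SameNP.refuted hg ((hn.perm' σ hσ).hyp rfl (by decide) ?_)
  simp only [SameNP.ctx] at hs ⊢
  simp only [List.forall_mem_cons, List.not_mem_nil, IsEmpty.forall_iff, implies_true, and_true]
  simp only [List.mem_cons, List.not_mem_nil, or_false, exists_eq_or_imp, exists_eq_left,
    holds_pos, holds_neg, val_vS, val_vN, val_vM, val_vW, val_vP, (kind_perm σ _).1,
    (kind_perm σ _).2, perm_rim h4 hK1, C.mem_perm_K, h4]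
  simp only [hs, d2, d3, d4, d5, d6, not_not, not_true, not_false_iff, and_true, true_and]
  simp only [hN1, hK1, ne_eq, not_true, not_false_iff, or_true, true_or, and_true, true_and, hW2, hW6, h3, h5]
  decide

/-- The case of the certificate `SamePN`. -/
lemma change_pn (hn : QuadNormal C) (h0 : (0 : ℝ) ∈ C.changes₀)
    (hW2 : C.Inside (cen 2)) (hW6 : C.Inside (cen 6))
    (h3 : ¬ C.Inside (cen 3) ∧ (cols C (cen 3)).card ≤ 2)
    (h5 : ¬ C.Inside (cen 5) ∧ 3 ≤ (cols C (cen 5)).card) : False := by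
  obtain ⟨hN1, hK1, hnd⟩ := change_rim hn h0
  have d2 := hnd 2 (by decide)
  have d3 := hnd 3 (by decide)
  have d4 := hnd 4 (by decide)
  have d5 := hnd 5 (by decide)
  have d6 := hnd 6 (by decide)
  obtain ⟨τ, σ, hσ, h4, hg, hs⟩ := exists_pair_samples hn h0 SamePN.ctx rfl
  refine SamePN.refuted hg ((hn.perm' σ hσ).hyp rfl (by decide) ?_)
  simp only [SamePN.ctx] at hs ⊢
  simp only [List.forall_mem_cons, List.not_mem_nil, IsEmpty.forall_iff, implies_true, and_true]
  simp only [List.mem_cons, List.not_mem_nil, or_false, exists_eq_or_imp, exists_eq_left,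
    holds_pos, holds_neg, val_vS, val_vN, val_vM, val_vW, val_vP, (kind_perm σ _).1,
    (kind_perm σ _).2, perm_rim h4 hK1, C.mem_perm_K, h4]
  simp only [hs, d2, d3, d4, d5, d6, not_not, not_true, not_false_iff, and_true, true_and]
  simp only [hN1, hK1, ne_eq, not_true, not_false_iff, or_true, true_or, and_true, true_and, hW2, hW6, h3, h5]
  decide

/-- The case of the certificate `SamePP`. -/
lemma change_pp (hn : QuadNormal C) (h0 : (0 : ℝ) ∈ C.changes₀)
    (hW2 : C.Inside (cen 2)) (hW6 : C.Inside (cen 6))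
    (h3 : ¬ C.Inside (cen 3) ∧ (cols C (cen 3)).card ≤ 2)
    (h5 : ¬ C.Inside (cen 5) ∧ (cols C (cen 5)).card ≤ 2) : False := by
  obtain ⟨hN1, hK1, hnd⟩ := change_rim hn h0
  have d2 := hnd 2 (by decide)
  have d3 := hnd 3 (by decide)
  have d4 := hnd 4 (by decide)
  have d5 := hnd 5 (by decide)
  have d6 := hnd 6 (by decide)
  obtain ⟨τ, σ, hσ, h4, hg, hs⟩ := exists_pair_samples hn h0 SamePP.ctx rfl
  refine SamePP.refuted hg ((hn.perm' σ hσ).hyp rfl (by decide) ?_)
  simp only [SamePP.ctx] at hs ⊢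
  simp only [List.forall_mem_cons, List.not_mem_nil, IsEmpty.forall_iff, implies_true, and_true]
  simp only [List.mem_cons, List.not_mem_nil, or_false, exists_eq_or_imp, exists_eq_left,
    holds_pos, holds_neg, val_vS, val_vN, val_vM, val_vW, val_vP, (kind_perm σ _).1,
    (kind_perm σ _).2, perm_rim h4 hK1, C.mem_perm_K, h4]
  simp only [hs, d2, d3, d4, d5, d6, not_not, not_true, not_false_iff, and_true, true_and]
  simp only [hN1, hK1, ne_eq, not_true, not_false_iff, or_true, true_or, and_true, true_and, hW2, hW6, h3, h5]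
  decide

/-- The two rim neighbours of a change without nodes are inside the last colour. -/
lemma change_inside (hn : QuadNormal C) (h0 : (0 : ℝ) ∈ C.changes₀)
    (hN2 : ¬ (¬ C.Inside (cen 2) ∧ 3 ≤ (cols C (cen 2)).card))
    (hN6 : ¬ (¬ C.Inside (cen 6) ∧ 3 ≤ (cols C (cen 6)).card)) :
    C.Inside (cen 2) ∧ C.Inside (cen 6) ∧ ¬ C.Inside (cen 3) ∧ ¬ C.Inside (cen 5) := by
  obtain ⟨-, hK1, -⟩ := change_rim hn h0
  have hone : ∀ c : Fin 5, c.val < 4 → cen 1 ∈ C.K c := fun c hc =>
    (hK1 c).2 (by revert hc; clear * -; revert c; decide)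
  have inside : ∀ n : Fin 7, ¬ (¬ C.Inside (cen n) ∧ 3 ≤ (cols C (cen n)).card) →
      dist (cen n) 0 = 1 → dist (cen n) (cen 1) = 1 → 0 + cen 1 ≠ 2 * cen n →
      cen n ∈ C.U 4 := by
    intro n hnN d0 d1 hsum
    have hI : C.Inside (cen n) := by
      by_contra hI
      have hle : (cols C (cen n)).card = 2 := by
        have := two_le_card_cols hI
        by_contra h
        exact hnN ⟨hI, by omega⟩
      obtain ⟨a, b, hab, he⟩ := Finset.card_eq_two.1 hle
      obtain ⟨x, hx, hxlt⟩ : ∃ x ∈ cols C (cen n), x.val < 4 := by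
        rw [he]
        revert hab; clear * -; revert a b; decide
      refine C.two_colour hI (a := x) (b := if x = a then b else a) (fun c hc => ?_)
        (Or.inl ((hn.root_K x).2 hxlt)) (Or.inl (hone x hxlt)) d0 d1 ?_ hsum
      · have hc' := mem_cols.2 hc
        rw [he] at hc' hx
        simp only [Finset.mem_insert, Finset.mem_singleton] at hc' hx
        rcases hx with rfl | rfl
        · simpa [eq_comm] using hc'
        · rw [if_neg hab.symm]; tauto
      · intro h
        have hd := congrArg norm h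
        rw [norm_zero] at hd
        have e1 : cen 1 = spin (((0 : ℕ) : ℝ) * (Real.pi / 3)) := cen_succ 0 (by norm_num)
        rw [e1, norm_spin] at hd
        norm_num at hd
    obtain ⟨c, hc⟩ := hI
    by_cases hc4 : c.val < 4
    · exact absurd d0 (C.dist_ne_one hc ((hn.root_K c).2 hc4))
    · obtain rfl : c = 4 := by revert hc4; clear * -; revert c; decide
      exact hc
  have outer : ∀ n m : Fin 7, cen n ∈ C.U 4 → dist (cen n) (cen m) = 1 → dist (cen m) 0 = 1 →
      ¬ C.Inside (cen m) := by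
    rintro n m hU hd d0 ⟨c, hc⟩
    by_cases hc4 : c.val < 4
    · exact C.dist_ne_one hc ((hn.root_K c).2 hc4) d0
    · obtain rfl : c = 4 := by revert hc4; clear * -; revert c; decide
      exact C.dist_ne_one hU (C.subset_K 4 hc) hd
  have d : ∀ a b : Fin 7, ((ctr a).sub (ctr b)).unit = true → dist (cen a) (cen b) = 1 :=
    fun a b h => dist_one_of_unit h
  have d0 : ∀ a : Fin 7, ((ctr a).sub (ctr 0)).unit = true → dist (cen a) 0 = 1 := fun a h => by
    rw [← cen_zero]; exact d a 0 h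
  have sum : ∀ a b : Fin 7, ((((ctr 0).add (ctr a))).sub ((ctr b).add (ctr b))).pos = true →
      0 + cen a ≠ 2 * cen b := fun a b h hh => by
    refine Pt.ne_zero_of_pos h ?_
    rw [Pt.val_sub, Pt.val_add, Pt.val_add, show (ctr 0).val = 0 from cen_zero]
    linear_combination (norm := (simp only [cen]; ring)) hh
  have h2 : cen 2 ∈ C.U 4 := inside 2 hN2 (d0 2 (by decide)) (d 2 1 (by decide)) (sum 1 2 (by decide))
  have h6 : cen 6 ∈ C.U 4 := inside 6 hN6 (d0 6 (by decide)) (d 6 1 (by decide)) (sum 1 6 (by decide))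
  exact ⟨⟨4, h2⟩, ⟨4, h6⟩, outer 2 3 h2 (d 2 3 (by decide)) (d0 3 (by decide)),
    outer 6 5 h6 (d 6 5 (by decide)) (d0 5 (by decide))⟩

/-- The changes at a point of four classes cannot be pairs. -/
lemma not_change (hn : QuadNormal C) (h0 : (0 : ℝ) ∈ C.changes₀) : False := by
  by_cases hN2 : ¬ C.Inside (cen 2) ∧ 3 ≤ (cols C (cen 2)).card
  · exact change_two hn h0 hN2
  by_cases hN6 : ¬ C.Inside (cen 6) ∧ 3 ≤ (cols C (cen 6)).card
  · exact change_six hn h0 hN6
  obtain ⟨hW2, hW6, hI3, hI5⟩ := change_inside hn h0 hN2 hN6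
  by_cases h3 : 3 ≤ (cols C (cen 3)).card <;> by_cases h5 : 3 ≤ (cols C (cen 5)).card
  · exact change_nn hn h0 hW2 hW6 ⟨hI3, h3⟩ ⟨hI5, h5⟩
  · exact change_np hn h0 hW2 hW6 ⟨hI3, h3⟩ ⟨hI5, by omega⟩
  · exact change_pn hn h0 hW2 hW6 ⟨hI3, by omega⟩ ⟨hI5, h5⟩
  · exact change_pp hn h0 hW2 hW6 ⟨hI3, by omega⟩ ⟨hI5, by omega⟩

/-- No point has exactly four classes when none has three. -/
theorem not_four (C : Cover) (h3 : ∀ p, ¬ C.Inside p → (cols C p).card ≠ 3) {p : ℂ}
    (hp : ¬ C.Inside p) : (cols C p).card ≠ 4 := by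
  intro h4
  obtain ⟨x, hx⟩ := C.not_five hp
  have hK : ∀ c, p ∈ C.K c ↔ c ≠ x := fun c =>
    (cols_eq_compl (l := {x}) (by simp [h4]) (by simpa using hx) c).trans (by simp)
  set D := (C.map (move p 0)).perm (Equiv.swap 4 x) with hD
  have hQ : QuadConf D := by
    refine ⟨fun c => ?_, ?_, fun q hq => ?_⟩
    · rw [hD, Cover.mem_perm_K, C.mem_map_K, move_apply, mul_zero, add_zero, hK]
      have : x.val < 5 := x.isLt
      clear * -; revert c x; decide
    · rw [hD, Cover.inside_perm, C.inside_map]; simpa using hp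
    · rw [hD, card_cols_perm, cols_map]
      exact h3 _ (by rwa [hD, Cover.inside_perm, C.inside_map] at hq)
  obtain ⟨θ, hθ, hcalm⟩ := exists_calm D.isClosed_changes D.interior_changes D.changes_nonempty
    D.changes_periodic
  obtain ⟨k, hk⟩ := D.mem_changes.1 hθ
  have e : (D.map (move 0 θ)).changes = (fun t => θ + t) ⁻¹' D.changes :=
    D.changes_map _ θ fun c t => D.mem_circ_rot θ c t
  have hn : QuadNormal (D.map (move 0 θ)) :=
    ⟨hQ.rot_conf θ, e.symm ▸ hcalm, e.symm ▸ by simpa using hθ⟩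
  refine not_change (hn.rot k) ?_
  rw [(D.map (move 0 θ)).changes₀_map _ ((k : ℝ) * (Real.pi / 3))
    (fun c t => (D.map (move 0 θ)).mem_circ_rot _ c t),
    D.changes₀_map _ θ fun c t => D.mem_circ_rot θ c t]
  simpa [mul_comm] using hk

end Cover

end Vale.Agent.P032
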