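import Vale.Agent.P032.Cert.Clauses

/-!
P032: moving a family, and choosing samples.
-/

namespace Vale.Agent.P032

open Set Filter Topology Metric Complex ComplexConjugate

/-- Rotation by `a` followed by the translation by `p`. -/
noncomputable def move (p : ℂ) (a : ℝ) : ℂ ≃ᵢ ℂ :=
  IsometryEquiv.mk' (fun z => p + exp ((a : ℂ) * I) * z) (fun z => (z - p) * exp (-((a : ℂ) * I)))
    (fun z => by
      rw [show exp ((a : ℂ) * I) * ((z - p) * exp (-((a : ℂ) * I))) =
        (z - p) * (exp ((a : ℂ) * I) * exp (-((a : ℂ) * I))) by ring, ← Complex.exp_add,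
        add_neg_cancel, Complex.exp_zero]
      ring)
    (Isometry.of_dist_eq fun x y => by
      simp [dist_eq_norm, ← mul_sub, norm_exp_ofReal_mul_I])

@[simp] lemma move_apply (p : ℂ) (a : ℝ) (z : ℂ) : move p a z = p + exp ((a : ℂ) * I) * z := rfl

/-- The point at angle `t` on the unit circle about the origin. -/
noncomputable def spin (t : ℝ) : ℂ := exp ((t : ℂ) * I)

lemma spin_add (s t : ℝ) : spin (s + t) = spin s * spin t := by
  simp [spin, add_mul, Complex.exp_add]

lemma spin_zero : spin 0 = 1 := by simp [spin]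

lemma norm_spin (t : ℝ) : ‖spin t‖ = 1 := norm_exp_ofReal_mul_I t

lemma continuous_spin : Continuous spin := by unfold spin; fun_prop

lemma spin_periodic : Function.Periodic spin (2 * Real.pi) := fun t => by
  rw [spin_add, show spin (2 * Real.pi) = 1 by simp [spin, Complex.exp_two_pi_mul_I], mul_one]

lemma orbit_zero_one (t : ℝ) : orbit 0 1 t = spin t := by simp [orbit, spin]

/-- The angles at which the circle about the origin has a colour. -/
def Cover.circ (C : Cover) (c : Fin 5) : Set ℝ := {t | spin t ∈ C.K c}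

lemma Cover.isClosed_circ (C : Cover) (c : Fin 5) : IsClosed (C.circ c) :=
  (C.isClosed_K c).preimage continuous_spin

lemma Cover.mem_circ_rot (C : Cover) (a : ℝ) (c : Fin 5) (t : ℝ) :
    t ∈ (C.map (move 0 a)).circ c ↔ a + t ∈ C.circ c := by
  simp only [Cover.circ, mem_setOf_eq, C.mem_map_K, move_apply, zero_add, spin_add]
  rfl

lemma Cover.mem_circ_perm (C : Cover) (σ : Equiv.Perm (Fin 5)) (c : Fin 5) (t : ℝ) :
    t ∈ (C.perm σ).circ c ↔ t ∈ C.circ (σ c) := Iff.rfl

lemma Cover.inside_map (C : Cover) (e : ℂ ≃ᵢ ℂ) (p : ℂ) : (C.map e).Inside p ↔ C.Inside (e p) :=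
  Iff.rfl

lemma Cover.inside_perm (C : Cover) (σ : Equiv.Perm (Fin 5)) (p : ℂ) :
    (C.perm σ).Inside p ↔ C.Inside p :=
  ⟨fun ⟨i, hi⟩ => ⟨σ i, hi⟩, fun ⟨i, hi⟩ => ⟨σ.symm i, by simpa [Cover.perm] using hi⟩⟩

namespace Cert

lemma cols_map (C : Cover) (e : ℂ ≃ᵢ ℂ) (p : ℂ) : cols (C.map e) p = cols C (e p) := by
  ext c; simp [mem_cols, C.mem_map_K]

lemma card_cols_perm (C : Cover) (σ : Equiv.Perm (Fin 5)) (p : ℂ) :
    (cols (C.perm σ) p).card = (cols C p).card := by
  rw [← Finset.card_map σ.toEmbedding]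
  congr 1
  ext c
  simp only [Finset.mem_map_equiv, mem_cols, C.mem_perm_K, Equiv.apply_symm_apply]

lemma Good.perm {C : Cover} {X : Ctx} {τ : Bool → ℝ} (h : Good C X τ) (σ : Equiv.Perm (Fin 5)) :
    Good (C.perm σ) X τ where
  pos := h.pos
  stable n j s c := h.stable n j s (σ c)
  all n j s c := h.all n j s (σ c)
  some n j s c := h.some n j s (σ c)
  ne := h.ne

/-- Samples exist in any open sets that come arbitrarily near the start. -/
theorem exists_good (C : Cover) (X : Ctx) (W : Bool → Set ℝ) (hW : ∀ s, IsOpen (W s))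
    (hf : ∀ s, ∃ᶠ t in 𝓝[>] (0 : ℝ), t ∈ W s) : ∃ τ, Good C X τ ∧ ∀ s, τ s ∈ W s := by
  have one : ∀ s, ∃ t : ℝ, 0 < t ∧ t ∈ W s ∧ (∀ n j c,
      (∀ᶠ u in 𝓝 t, (path X n j s u ∈ C.K c ↔ path X n j s t ∈ C.K c)) ∧
      (AllNear C X n j s c → path X n j s t ∈ C.K c) ∧
      (path X n j s t ∈ C.K c → SomeNear C X n j s c)) ∧
      ∀ (n m : Fin 7) j, turn (X.pt j) ((ctr m).sub (ctr n)) ≠ 0 →
        (I * (X.pt j).val * exp (((dir s * t : ℝ) : ℂ) * I) * conj (cen m - cen n)).re ≠ 0 := by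
    intro s
    set L := X.pts.length with hL
    have pt_min : ∀ j, X.pt (min j L) = X.pt j := by
      intro j
      rcases le_total j L with h | h
      · rw [min_eq_left h]
      · rw [min_eq_right h]
        rw [Ctx.pt, Ctx.pt, List.getD_eq_default _ _ (le_refl _), List.getD_eq_default _ _ h]
    have all : ∀ᶠ t in 𝓝[>] (0 : ℝ), ∀ a : Fin 7 × Fin (L + 1) × Fin 5,
        (AllNear C X a.1 a.2.1 s a.2.2 → path X a.1 a.2.1 s t ∈ C.K a.2.2) ∧
        (¬ SomeNear C X a.1 a.2.1 s a.2.2 →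
          ¬ ∀ᶠ u in 𝓝 t, path X a.1 a.2.1 s u ∈ C.K a.2.2) := by
      refine eventually_all.2 fun a => Eventually.and ?_ ?_
      · by_cases h : AllNear C X a.1 a.2.1 s a.2.2
        · exact h.mono fun _ ht _ => ht
        · exact Eventually.of_forall fun _ h' => absurd h' h
      · by_cases h : SomeNear C X a.1 a.2.1 s a.2.2
        · exact Eventually.of_forall fun _ h' => absurd h h'
        · exact (not_frequently.1 h).mono fun _ ht _ => ht
    have ne0 : ∀ᶠ t in 𝓝[>] (0 : ℝ), ∀ a : Fin 7 × Fin 7 × Fin (L + 1),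
        turn (X.pt a.2.2) ((ctr a.2.1).sub (ctr a.1)) ≠ 0 →
        (I * (X.pt a.2.2).val * exp (((dir s * t : ℝ) : ℂ) * I) *
          conj (cen a.2.1 - cen a.1)).re ≠ 0 := by
      refine eventually_all.2 fun a => ?_
      by_cases h : turn (X.pt a.2.2) ((ctr a.2.1).sub (ctr a.1)) = 0
      · exact Eventually.of_forall fun _ h' => absurd h h'
      · have h0 := turn_ne h
        rw [Pt.val_sub] at h0
        have hc : Continuous fun t : ℝ => (I * (X.pt a.2.2).val *
            exp (((dir s * t : ℝ) : ℂ) * I) * conj (cen a.2.1 - cen a.1)).re := by fun_prop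
        refine Eventually.mono (nhdsWithin_le_nhds ((hc.tendsto 0).eventually_ne ?_))
          fun _ ht _ => ht
        simpa [cen] using h0
    obtain ⟨r, hr, hsub⟩ := mem_nhdsGT_iff_exists_Ioo_subset.1 (all.and ne0)
    obtain ⟨t₀, ht₀, ht₀r⟩ := ((hf s).and_eventually (Ioo_mem_nhdsGT hr)).exists
    have hcont : ∀ n j, Continuous (path X n j s) := fun n j =>
      (continuous_orbit _ _).comp (continuous_const_mul _)
    obtain ⟨t, ⟨htW, htr⟩, hst⟩ := Cover.exists_stable
      (fun a : Fin 7 × Fin (L + 1) × Fin 5 => path X a.1 a.2.1 s ⁻¹' C.K a.2.2)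
      (fun a => (C.isClosed_K _).preimage (hcont _ _)) ((hW s).inter isOpen_Ioo) ⟨t₀, ht₀, ht₀r⟩
    obtain ⟨h1, h2⟩ := hsub htr
    refine ⟨t, htr.1, htW, fun n j c => ?_, fun n m j h => ?_⟩
    · have e := pt_min j
      have a1 := h1 (n, ⟨min j L, by omega⟩, c)
      have a2 := hst (n, ⟨min j L, by omega⟩, c)
      simp only [AllNear, SomeNear, path, mem_preimage, e] at a1 a2 ⊢
      refine ⟨a2, a1.1, fun hm => ?_⟩
      by_contra hE
      exact a1.2 hE (a2.mono fun u hu => hu.2 hm)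
    · have a3 := h2 (n, m, ⟨min j L, by omega⟩)
      simp only [pt_min j] at a3
      exact a3 h
  choose t htp htW ht hne using one
  exact ⟨t, ⟨htp, fun n j s c => (ht s n j c).1, fun n j s c => (ht s n j c).2.1,
    fun n j s c => (ht s n j c).2.2, fun n m j s h => hne s n m j h⟩, htW⟩

end Cert

end Vale.Agent.P032
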