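import Vale.Agent.P032.Main.FourCases

/-!
P032: there is no five-class family, hence no five open unit-free sets with dense union.
-/

namespace Vale.Agent.P032

open Cert Set Filter Topology MeasureTheory

lemma Cover.impossible (C : Cover) : False := by
  obtain ⟨p, i, j, k, hij, hik, hjk, hi, hj, hk, hU⟩ := C.exists_triple_point
  by_cases hI : C.Inside p
  · obtain ⟨a, b, c⟩ := hU hI
    exact C.not_inside_three hij hik hjk a b c
  have h3 : ∀ q, ¬ C.Inside q → (cols C q).card ≠ 3 := fun q hq => C.not_three hq
  have hsub : ({i, j, k} : Finset (Fin 5)) ⊆ cols C p := by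
    simp [Finset.insert_subset_iff, mem_cols, hi, hj, hk]
  have hc := Finset.card_le_card hsub
  rw [show ({i, j, k} : Finset (Fin 5)).card = 3 by simp [hij, hik, hjk]] at hc
  obtain ⟨x, hx⟩ := C.not_five hI
  have h5 : (cols C p).card < Finset.univ.card := Finset.card_lt_card
    (Finset.ssubset_univ_iff.2 fun e => hx (mem_cols.1 (e ▸ Finset.mem_univ x)))
  simp only [Finset.card_univ, Fintype.card_fin] at h5
  have := h3 p hI
  have := Cover.not_four C h3 hI
  omega

/-- Five open sets without unit distances never have dense union. -/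
theorem no_five_open_dense (O : Fin 5 → Set ℂ) (hO : ∀ i, IsOpen (O i))
    (hfree : ∀ i, ∀ x ∈ O i, ∀ y ∈ O i, dist x y ≠ 1) : ¬ Dense (⋃ i, O i) := by
  intro hd
  choose U hOU hUo hUf hUm using fun i => exists_maximal (hO i) (hfree i)
  refine (Cover.mk U hUo hUf hUm fun p => ?_).impossible
  have hp : p ∈ closure (⋃ i, O i) := hd p
  rw [closure_iUnion_of_finite] at hp
  obtain ⟨i, hi⟩ := mem_iUnion.1 hp
  exact ⟨i, closure_mono (hOU i) hi⟩

end Vale.Agent.P032
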