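import Vale.Agent.P032.Main.Easy
import Vale.Agent.P032.Cert.Data.RimTriple
import Vale.Agent.P032.Cert.Data.RimPair
import Vale.Agent.P032.Cert.Data.RimEqual

/-!
P032: no boundary point lies in exactly three closed classes.
-/

namespace Vale.Agent.P032

open Set Filter Topology Metric Complex ComplexConjugate Cert

lemma cen_succ (k : ℕ) (hk : k + 1 < 7) : cen ⟨k + 1, hk⟩ = spin (k * (Real.pi / 3)) := by
  have h := val_dirs val_dirs0 (by decide) k (by omega)
  rw [zero_add] at h
  rw [← h]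
  rfl

lemma cen_spin : ∀ n : Fin 7, n ≠ 0 → ∃ k : ℤ, cen n = spin (k * (Real.pi / 3))
  | ⟨0, _⟩, h => absurd rfl h
  | ⟨k + 1, hk⟩, _ => ⟨k, by rw [cen_succ k hk]; norm_num⟩

namespace Cover

variable {C : Cover}

/-- An arc of a colour on the circle keeps it away from the two neighbouring directions. -/
lemma notMem_circ_of_arc {a : Fin 5} {t : ℝ} (h : t ∈ interior (C.circ a)) :
    t + Real.pi / 3 ∉ C.circ a ∧ t - Real.pi / 3 ∉ C.circ a := by
  have hev : ∀ᶠ u in 𝓝 t, orbit 0 1 u ∈ C.K a := by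
    filter_upwards [mem_interior_iff_mem_nhds.1 h] with u hu
    rw [orbit_zero_one]; exact hu
  have hn : spin t * conj (spin t) = 1 := by
    rw [Complex.mul_conj, Complex.normSq_eq_norm_sq, norm_spin]; simp
  have key : ∀ d : ℝ, dist (spin (t + d)) (spin t) = 1 →
      (I * (1 - conj (spin d))).re ≠ 0 → t + d ∉ C.circ a := by
    intro d hd hne hm
    refine C.cross_arc (continuous_orbit 0 1) (hasDerivAt_dist_sq (hasDerivAt_orbit 0 1 t))
      ?_ ?_ hev hm
    · refine mul_ne_zero two_ne_zero ?_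
      rw [orbit_zero_one, mul_one, spin_add, show spin t - spin t * spin d =
        spin t * (1 - spin d) by ring, map_mul, map_sub, map_one,
        show I * exp ((t : ℂ) * I) * (conj (spin t) * (1 - conj (spin d))) =
          I * (1 - conj (spin d)) * (spin t * conj (spin t)) by unfold spin; ring, hn, mul_one]
      exact hne
    · rw [orbit_zero_one, dist_comm]; exact hd
  refine ⟨key _ (dist_spin_third t) ?_, ?_⟩
  · rw [spin_third]; simp [Cover.sixth]
  · rw [sub_eq_add_neg]
    refine key _ (by rw [← sub_eq_add_neg]; exact dist_spin_sub_third t) ?_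
    rw [spin, Complex.I_mul_re, Complex.sub_im, Complex.conj_im, Complex.exp_ofReal_mul_I_im,
      Real.sin_neg, Real.sin_pi_div_three]
    simp

/-- A configuration about a point of exactly the first three classes. -/
structure TriConf (C : Cover) : Prop where
  root_K : ∀ c, (0 : ℂ) ∈ C.K c ↔ c.val < 3
  root_not : ¬ C.Inside 0

namespace TriConf

variable (h : TriConf C)
include h

lemma circ_cover (t : ℝ) : t ∈ C.circ 3 ∨ t ∈ C.circ 4 := by
  have := C.circle_cover h.root_not (show (3 : Fin 5) ≠ 4 by decide)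
    (fun c => by rw [h.root_K]; revert c; decide) (b := 1) (by simp) t
  simpa [orbit_zero_one, Cover.circ] using this

lemma flip {a b : Fin 5} (hab : ∀ t, t ∈ C.circ a ∨ t ∈ C.circ b) {t : ℝ}
    (ht : t ∈ interior (C.circ a)) : t + Real.pi / 3 ∈ interior (C.circ b) ∧ t ∉ C.circ b := by
  have h1 : t + Real.pi / 3 ∈ interior (C.circ b) := by
    rw [mem_interior_iff_mem_nhds]
    have hev : ∀ᶠ u in 𝓝 (t + Real.pi / 3), u - Real.pi / 3 ∈ interior (C.circ a) :=
      (by simpa using (continuous_sub_right (Real.pi / 3)).tendsto (t + Real.pi / 3) :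
        Tendsto (fun u => u - Real.pi / 3) (𝓝 (t + Real.pi / 3)) (𝓝 t)).eventually
        (isOpen_interior.eventually_mem ht)
    filter_upwards [hev] with u hu
    have := (notMem_circ_of_arc hu).1
    rw [sub_add_cancel] at this
    exact (hab u).resolve_left this
  refine ⟨h1, ?_⟩
  have := (notMem_circ_of_arc h1).2
  rwa [add_sub_cancel_right] at this

lemma frontier_sub {a b : Fin 5} (hab : ∀ t, t ∈ C.circ a ∨ t ∈ C.circ b) :
    frontier (C.circ a) ⊆ C.circ a ∩ C.circ b := fun t ht => by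
  refine ⟨(C.isClosed_circ a).frontier_subset ht, ?_⟩
  by_contra hb
  exact ht.2 (interior_maximal (fun u hu => (hab u).resolve_right hu)
    (C.isClosed_circ b).isOpen_compl hb)

lemma switch_periodic (t : ℝ) :
    t + Real.pi / 3 ∈ C.circ 3 ∩ C.circ 4 ↔ t ∈ C.circ 3 ∩ C.circ 4 := by
  have hab := h.circ_cover
  have hba : ∀ u, u ∈ C.circ 4 ∨ u ∈ C.circ 3 := fun u => (hab u).symm
  have fwd : ∀ a b : Fin 5, (∀ u, u ∈ C.circ a ∨ u ∈ C.circ b) → ∀ u, u + Real.pi / 3 ∉ C.circ a →
      ¬ (u ∈ C.circ a ∧ u ∈ C.circ b) := by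
    intro a b hab u hu ⟨_, hb⟩
    have hi : u + Real.pi / 3 ∈ interior (C.circ b) :=
      interior_maximal (fun w hw => (hab w).resolve_left hw) (C.isClosed_circ a).isOpen_compl hu
    exact (notMem_circ_of_arc hi).2 (by rwa [add_sub_cancel_right])
  have bwd : ∀ a b : Fin 5, (∀ u, u ∈ C.circ a ∨ u ∈ C.circ b) → ∀ u, u ∉ C.circ a →
      u + Real.pi / 3 ∉ C.circ b := by
    intro a b hab u hu
    have hi : u ∈ interior (C.circ b) :=
      interior_maximal (fun w hw => (hab w).resolve_left hw) (C.isClosed_circ a).isOpen_compl hu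
    exact (notMem_circ_of_arc hi).1
  refine ⟨fun ⟨h3, h4⟩ => ?_, fun ht => ?_⟩
  · by_contra hn
    rcases not_and_or.1 hn with hn | hn
    · exact bwd 3 4 hab t hn h4
    · exact bwd 4 3 hba t hn h3
  · by_contra hn
    rcases not_and_or.1 hn with hn | hn
    · exact fwd 3 4 hab t hn ht
    · exact fwd 4 3 hba t hn ⟨ht.2, ht.1⟩

lemma switch_interior : interior (C.circ 3 ∩ C.circ 4) = ∅ := by
  refine eq_empty_of_forall_notMem fun t ht => ?_
  exact (h.flip h.circ_cover (interior_mono inter_subset_left ht)).2 (interior_subset ht).2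

lemma switch_nonempty : (C.circ 3 ∩ C.circ 4).Nonempty := by
  by_contra hne
  have key : ∀ a b : Fin 5, (∀ t, t ∈ C.circ a ∨ t ∈ C.circ b) →
      ¬ (∀ t, t ∈ interior (C.circ a)) := fun a b hab hall =>
    (h.flip hab (hall 0)).2 (interior_subset (h.flip hab (hall (0 - Real.pi / 3))).1 |>
      fun h' => by simpa using h')
  by_cases h3 : ∃ t, t ∈ C.circ 3
  · by_cases h4 : ∃ t, t ∈ C.circ 4
    · obtain ⟨t, -, ht⟩ := isPreconnected_closed_iff.1 isPreconnected_univ _ _ (C.isClosed_circ 3)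
        (C.isClosed_circ 4) (fun t _ => h.circ_cover t) (by rw [univ_inter]; exact h3)
        (by rw [univ_inter]; exact h4)
      exact hne ⟨t, ht⟩
    · push Not at h4
      exact key 3 4 h.circ_cover fun t =>
        interior_maximal (fun u _ => (h.circ_cover u).resolve_right (h4 u)) isOpen_univ (mem_univ t)
  · push Not at h3
    exact key 4 3 (fun t => (h.circ_cover t).symm) fun t =>
      interior_maximal (fun u _ => (h.circ_cover u).resolve_left (h3 u)) isOpen_univ (mem_univ t)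

lemma rot_conf (a : ℝ) : TriConf (C.map (move 0 a)) :=
  ⟨fun c => by rw [C.mem_map_K]; simpa using h.root_K c,
    by rw [C.inside_map]; simpa using h.root_not⟩

lemma perm_conf (σ : Equiv.Perm (Fin 5)) (hσ : ∀ c : Fin 5, (σ c).val < 3 ↔ c.val < 3) :
    TriConf (C.perm σ) :=
  ⟨fun c => by rw [C.mem_perm_K, h.root_K, hσ], by rw [C.inside_perm]; exact h.root_not⟩

lemma rim {t : ℝ} (ht : t ∈ C.circ 3 ∩ C.circ 4) :
    ¬ C.Inside (spin t) ∧ 3 ≤ (cols C (spin t)).card := by
  have hn := (h.switch_periodic t).2 ht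
  have hp : t - Real.pi / 3 ∈ C.circ 3 ∩ C.circ 4 :=
    (h.switch_periodic _).1 (by rwa [sub_add_cancel])
  have hI : ¬ C.Inside (spin t) := by
    rintro ⟨c, hc⟩
    by_cases hc3 : c.val < 3
    · exact C.dist_ne_one hc ((h.root_K c).2 hc3) (by rw [dist_zero_right, norm_spin])
    · have : c = 3 ∨ c = 4 := by revert hc3; clear * -; revert c; decide
      have hd : dist (spin t) (spin (t + Real.pi / 3)) = 1 := by
        rw [dist_comm]; exact dist_spin_third t
      rcases this with rfl | rfl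
      · exact C.dist_ne_one hc hn.1 hd
      · exact C.dist_ne_one hc hn.2 hd
  refine ⟨hI, ?_⟩
  by_contra hcard
  have h34 : ({3, 4} : Finset (Fin 5)) ⊆ cols C (spin t) := by
    simp [Finset.insert_subset_iff, mem_cols]; exact ⟨ht.1, ht.2⟩
  have heq : ({3, 4} : Finset (Fin 5)) = cols C (spin t) :=
    Finset.eq_of_subset_of_card_le h34 (by simp; omega)
  refine C.two_colour hI (a := 3) (b := 4) (fun c hc => by
    have := mem_cols.2 hc
    rw [← heq] at this
    simpa using this) (Or.inl hn.1) (Or.inl hp.1) (by rw [dist_comm]; exact dist_spin_third t)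
    (by rw [dist_comm]; exact dist_spin_sub_third t) (spin_neighbours t).1 (spin_neighbours t).2

/-- The renamed and turned configuration in normal position. -/
structure Normal (C : Cover) : Prop extends TriConf C where
  calm : Calm (C.circ 3 ∩ C.circ 4)
  switch : (0 : ℝ) ∈ C.circ 3 ∩ C.circ 4

omit h in
lemma Normal.rot (hn : Normal C) (k : ℤ) : Normal (C.map (move 0 ((k : ℝ) * (Real.pi / 3)))) := by
  have e : (C.map (move 0 ((k : ℝ) * (Real.pi / 3)))).circ 3 ∩
      (C.map (move 0 ((k : ℝ) * (Real.pi / 3)))).circ 4 = C.circ 3 ∩ C.circ 4 := by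
    ext t
    rw [mem_inter_iff, C.mem_circ_rot, C.mem_circ_rot, add_comm _ t, ← mem_inter_iff,
      periodic_int hn.calm.periodic]
  exact ⟨hn.toTriConf.rot_conf _, e.symm ▸ hn.calm, e.symm ▸ hn.switch⟩

omit h in
lemma Normal.perm_conf' (hn : Normal C) (σ : Equiv.Perm (Fin 5))
    (hσ : ∀ c : Fin 5, (σ c).val < 3 ↔ c.val < 3) : Normal (C.perm σ) := by
  have h3 : σ 3 = 3 ∧ σ 4 = 4 ∨ σ 3 = 4 ∧ σ 4 = 3 := by
    have i34 : σ 3 ≠ σ 4 := σ.injective.ne (by decide)
    have a : ¬ (σ 3).val < 3 := by rw [hσ]; decide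
    have b : ¬ (σ 4).val < 3 := by rw [hσ]; decide
    revert i34 a b; generalize σ 3 = x; generalize σ 4 = y; revert x y; decide
  have e : (C.perm σ).circ 3 ∩ (C.perm σ).circ 4 = C.circ 3 ∩ C.circ 4 := by
    ext t
    simp only [mem_inter_iff, C.mem_circ_perm]
    rcases h3 with ⟨a, b⟩ | ⟨a, b⟩ <;> rw [a, b]
    exact and_comm
  exact ⟨hn.toTriConf.perm_conf σ hσ, e.symm ▸ hn.calm, e.symm ▸ hn.switch⟩

omit h in
lemma Normal.rim_at (hn : Normal C) (k : ℤ) : ¬ C.Inside (spin (k * (Real.pi / 3))) ∧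
    3 ≤ (cols C (spin (k * (Real.pi / 3)))).card ∧ spin (k * (Real.pi / 3)) ∈ C.K 3 ∧
      spin (k * (Real.pi / 3)) ∈ C.K 4 := by
  have ht : ((k : ℝ) * (Real.pi / 3)) ∈ C.circ 3 ∩ C.circ 4 := by
    have := (periodic_int hn.calm.periodic k 0).2 hn.switch
    rwa [zero_add] at this
  exact ⟨(hn.toTriConf.rim ht).1, (hn.toTriConf.rim ht).2, ht.1, ht.2⟩

omit h in
lemma Normal.frame (hn : Normal C) {X : Ctx} (hroot : X.root = .triple) (hX : knownDirs X = true)
    (h0 : X.pt 0 = ⟨36, 0, 0, 0⟩) : ∃ σ : Equiv.Perm (Fin 5),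
      (∀ c : Fin 5, c.val < 3 → σ c = c) ∧ (∀ c : Fin 5, (σ c).val < 3 ↔ c.val < 3) ∧
      ∀ ρ : Equiv.Perm (Fin 5), (∀ c : Fin 5, (ρ c).val < 3 ↔ c.val < 3) → ρ 3 = 3 → ρ 4 = 4 →
      ∃ τ, Good ((C.perm σ).perm ρ) X τ ∧
        ((AtSample ((C.perm σ).perm ρ) X τ 0 0 true 3 ∧
          ¬ AtSample ((C.perm σ).perm ρ) X τ 0 0 true 4 ∧
          AtSample ((C.perm σ).perm ρ) X τ 0 0 false 4 ∧
          ¬ AtSample ((C.perm σ).perm ρ) X τ 0 0 false 3 →
            ∀ g ∈ X.given, ∃ l ∈ g, Holds (Val ((C.perm σ).perm ρ) X τ) l) →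
          Hyp ((C.perm σ).perm ρ) X τ) := by
  obtain ⟨r, hr, hsub⟩ := mem_nhdsGT_iff_exists_Ioo_subset.1 hn.calm.right
  obtain ⟨σ, hσ, hσ', hright⟩ : ∃ σ : Equiv.Perm (Fin 5), (∀ c : Fin 5, c.val < 3 → σ c = c) ∧
      (∀ c : Fin 5, (σ c).val < 3 ↔ c.val < 3) ∧
      Ioo 0 r ⊆ interior ((C.perm σ).circ 3) := by
    have hab := hn.toTriConf.circ_cover
    have hav : ∀ t ∈ Ioo (0 : ℝ) r, t ∉ frontier (C.circ 3) :=
      fun t ht hf => hsub ht (hn.toTriConf.frontier_sub hab hf)
    by_cases h3 : (Ioo 0 r ∩ C.circ 3).Nonempty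
    · exact ⟨1, fun _ _ => rfl, fun _ => Iff.rfl,
        subset_interior_of_meets isPreconnected_Ioo hav h3⟩
    · refine ⟨Equiv.swap 3 4, by decide, by decide, interior_maximal (fun t ht => ?_) isOpen_Ioo⟩
      rw [C.mem_circ_perm, Equiv.swap_apply_left]
      exact (hab t).resolve_left fun hm => h3 ⟨t, ht, hm⟩
  refine ⟨σ, hσ, hσ', fun ρ hρ r3 r4 => ?_⟩
  have hD := (hn.perm_conf' σ hσ').perm_conf' ρ hρ
  set D := (C.perm σ).perm ρ with hDdef
  have e3 : D.circ 3 = (C.perm σ).circ 3 := by ext t; rw [hDdef, Cover.mem_circ_perm, r3]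
  rw [← e3] at hright
  have hab := hD.toTriConf.circ_cover
  have hb : (X.pt 0).val = spin 0 := by rw [h0]; exact val_dirs0
  let W : Bool → Set ℝ := fun s =>
    bif s then univ else {t | -t ∈ interior (D.circ 4) \ D.circ 3}
  have hW : ∀ s, IsOpen (W s)
    | true => isOpen_univ
    | false => (isOpen_interior.sdiff (D.isClosed_circ 3)).preimage continuous_neg
  have hf : ∀ s, ∃ᶠ t in 𝓝[>] (0 : ℝ), t ∈ W s
    | true => Frequently.of_forall fun _ => mem_univ _
    | false => by
      by_contra hno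
      obtain ⟨q, hq, hqs⟩ := mem_nhdsGT_iff_exists_Ioo_subset.1 (not_frequently.1 hno)
      have hq' : (0 : ℝ) < q := hq
      have hr' : (0 : ℝ) < r := hr
      refine (hD.toTriConf.flip hab ?_).2 hD.switch.2
      refine mem_interior_iff_mem_nhds.2 (mem_of_superset (Ioo_mem_nhds (neg_neg_iff_pos.2 hq') hr')
        fun t ht => ?_)
      rcases lt_trichotomy t 0 with hlt | rfl | hgt
      · by_contra hn3
        refine hqs (show -t ∈ Ioo 0 q from ⟨by linarith, by linarith [ht.1]⟩)
          (show - -t ∈ interior (D.circ 4) \ D.circ 3 from ?_)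
        rw [neg_neg]
        exact ⟨interior_maximal (fun u hu => (hab u).resolve_left hu)
          (D.isClosed_circ 3).isOpen_compl hn3, hn3⟩
      · exact hD.switch.1
      · exact interior_subset (hright ⟨hgt, ht.2⟩)
  obtain ⟨τ, hg, hτ⟩ := exists_good D X W hW hf
  refine ⟨τ, hg, fun hgiven => ⟨fun c => ?_, hD.root_not, fun _ p hp => D.not_five hp,
    fun hq => absurd (hroot.symm.trans hq) (by decide), ?_,
    fun hq => absurd (hroot.symm.trans hq) (by decide), given_of (hgiven ?_)⟩⟩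
  · rw [hD.root_K, hroot]; simp [Root.has]
  · rintro j s s' c hreg (⟨-, hc⟩ | ⟨hq, -⟩) hE
    · obtain ⟨β, J, hβ, hJ, -, hav, hs, hs'⟩ := hD.calm.side hX hreg
      rw [someNear_iff hβ] at hE
      rw [allNear_iff hβ]
      obtain ⟨t, ht, htJ⟩ := (hE.and_eventually hs').exists
      have hcc : c = 3 ∨ c = 4 := by revert hc; clear * -; revert c; decide
      have hav' : ∀ u ∈ J, u ∉ frontier (D.circ c) := fun u hu hf => hav u hu (by
        rcases hcc with rfl | rfl
        · exact hD.toTriConf.frontier_sub hab hf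
        · exact (hD.toTriConf.frontier_sub (fun u => (hab u).symm) hf).symm)
      have := subset_interior_of_meets hJ hav' ⟨_, htJ, interior_subset ht⟩
      exact hs.mono fun u hu => interior_subset (this hu)
    · exact absurd (hroot.symm.trans hq) (by decide)
  · have s3 : AtSample D X τ 0 0 true 3 := hg.all _ _ _ _ ((allNear_iff hb true 3).2 (by
      filter_upwards [Ioo_mem_nhdsGT hr] with t ht
      exact interior_subset (hright (by simpa [dir] using ht))))
    have n4 : ¬ AtSample D X τ 0 0 true 4 := fun h4 => by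
      obtain ⟨t, ht4, htr⟩ := (((someNear_iff hb true 4).1 (hg.some _ _ _ _ h4)).and_eventually
        (Ioo_mem_nhdsGT hr)).exists
      have ht3 : 0 + dir true * t ∈ interior (D.circ 3) := hright (by simpa [dir] using htr)
      exact (hD.toTriConf.flip hab ht3).2 (interior_subset ht4)
    have hm : -τ false ∈ interior (D.circ 4) \ D.circ 3 := hτ false
    have e : path X 0 0 false (τ false) = spin (-τ false) := by
      rw [path_spin hb]; simp [dir]
    refine ⟨s3, n4, ?_, fun h3 => hm.2 ?_⟩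
    · show _ ∈ D.K 4
      rw [e]; exact interior_subset (s := D.circ 4) hm.1
    · have h3' : path X 0 0 false (τ false) ∈ D.K 3 := h3
      rw [e] at h3'; exact h3'

end TriConf

open TriConf

/-- In a normal position some rim point has four classes. -/
lemma rim_three (hn : Normal C) (k : ℤ) :
    (cols C (spin (k * (Real.pi / 3)))).card ≠ 3 := by
  intro hcard
  set E := C.map (move 0 ((k : ℝ) * (Real.pi / 3))) with hE
  have hnE : Normal E := hn.rot k
  have hc1 : (cols E 1).card = 3 := by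
    rw [hE, cols_map]; simpa [spin] using hcard
  obtain ⟨σ, hσ, hσ', hframe⟩ := hnE.frame (X := RimTriple.ctx) rfl (by decide) rfl
  obtain ⟨h1I, -, h13, h14⟩ := hnE.rim_at 0
  obtain ⟨h2I, -, h23, h24⟩ := hnE.rim_at 1
  simp only [Int.cast_zero, Int.cast_one, zero_mul, one_mul, spin_zero] at h1I h13 h14 h2I h23 h24
  obtain ⟨x, hxlt, hx⟩ : ∃ x : Fin 5, x.val < 3 ∧ cols E 1 = {3, 4, x} := by
    have h34 : ({3, 4} : Finset (Fin 5)) ⊆ cols E 1 := by
      simp [Finset.insert_subset_iff, mem_cols, h13, h14]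
    obtain ⟨x, hx⟩ : ∃ x, cols E 1 \ {3, 4} = {x} := Finset.card_eq_one.1 (by
      rw [Finset.card_sdiff_of_subset h34, hc1]; rfl)
    have hxm := hx.symm ▸ Finset.mem_singleton_self x
    rw [Finset.mem_sdiff] at hxm
    refine ⟨x, ?_, ?_⟩
    · have := hxm.2; revert this; clear * -; revert x; decide
    · rw [← Finset.sdiff_union_of_subset h34, hx, Finset.union_comm]
      rfl
  obtain ⟨ρ, hρ, r3, r4, r0⟩ : ∃ ρ : Equiv.Perm (Fin 5), (∀ c : Fin 5, (ρ c).val < 3 ↔ c.val < 3) ∧
      ρ 3 = 3 ∧ ρ 4 = 4 ∧ ρ 0 = x :=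
    ⟨Equiv.swap 0 x, by revert hxlt; clear * -; revert x; decide,
      by revert hxlt; clear * -; revert x; decide, by revert hxlt; clear * -; revert x; decide,
      Equiv.swap_apply_left 0 x⟩
  obtain ⟨τ, hg, hyp⟩ := hframe ρ hρ r3 r4
  set D := (E.perm σ).perm ρ with hD
  have hnD : Normal D := (hnE.perm_conf' σ hσ').perm_conf' ρ hρ
  have hnot1 : ¬ D.Inside 1 := by rw [hD, Cover.inside_perm, Cover.inside_perm]; exact h1I
  have hcD : (cols D 1).card = 3 := by rw [hD, card_cols_perm, card_cols_perm]; exact hc1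
  have h03 : ({0, 3, 4} : Finset (Fin 5)) ⊆ cols D 1 := by
    obtain ⟨-, -, a, b⟩ := hnD.rim_at 0
    simp only [Int.cast_zero, zero_mul, spin_zero] at a b
    have c : (1 : ℂ) ∈ D.K 0 := by
      rw [hD, Cover.mem_perm_K, Cover.mem_perm_K, r0, hσ x hxlt, ← mem_cols, hx]; simp
    simp [Finset.insert_subset_iff, mem_cols, a, b, c]
  have eq1 : cols D 1 = {0, 3, 4} :=
    (Finset.eq_of_subset_of_card_le h03 (by rw [hcD]; decide)).symm
  have hK1 : ∀ c, (1 : ℂ) ∈ D.K c ↔ c ≠ 1 ∧ c ≠ 2 := fun c => by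
    rw [← mem_cols, eq1]; revert c; decide
  have both : spin (Real.pi / 3) ∈ D.K 1 ∧ spin (Real.pi / 3) ∈ D.K 2 := by
    set b : ℂ := spin (Real.pi / 3) - 1 with hb
    have hb1 : ‖b‖ = 1 := by
      rw [hb, ← dist_eq_norm]; simpa [spin_zero] using dist_spin_third 0
    have key : ∀ d e : Fin 5, d ≠ e → (∀ c, (1 : ℂ) ∈ D.K c ↔ c ≠ d ∧ c ≠ e) →
        (0 : ℂ) ∈ D.K e → spin (Real.pi / 3) ∈ D.K d := by
      intro d e hde hM h0e
      by_contra hnd
      have hev : ∀ᶠ u in 𝓝 (0 : ℝ), orbit 1 b u ∈ D.K e := by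
        have h := ((continuous_orbit 1 b).tendsto 0).eventually
          (show ∀ᶠ q in 𝓝 (orbit 1 b 0), q ∉ D.K d by
            rw [orbit_zero, hb, add_sub_cancel]; exact D.eventually_notMem hnd)
        exact h.mono fun u hu => (D.circle_cover hnot1 hde hM hb1 u).resolve_left hu
      refine D.cross_arc (continuous_orbit 1 b) (hasDerivAt_dist_sq (hasDerivAt_orbit 1 b 0))
        ?_ ?_ hev h0e
      · refine mul_ne_zero two_ne_zero ?_
        rw [orbit_zero, hb, spin_third]
        simp [Cover.sixth]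
        intro hh
        have := Real.sqrt_pos.2 (show (0 : ℝ) < 3 by norm_num)
        nlinarith
      · rw [orbit_zero, hb, add_sub_cancel, dist_zero_right, norm_spin]
    exact ⟨key 1 2 (by decide) hK1 ((hnD.root_K 2).2 (by decide)),
      key 2 1 (by decide) (fun c => (hK1 c).trans and_comm) ((hnD.root_K 1).2 (by decide))⟩
  refine RimTriple.refuted hg (hyp fun hs => ?_)
  have hN : ∀ n : Fin 7, n ≠ 0 → ¬ D.Inside (cen n) ∧ 3 ≤ (cols D (cen n)).card ∧
      cen n ∈ D.K 3 ∧ cen n ∈ D.K 4 := fun n hn0 => by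
    obtain ⟨m, hm⟩ := cen_spin n hn0
    rw [hm]; exact hnD.rim_at m
  have e1 : cen 1 = 1 := (cen_succ 0 (by norm_num)).trans (by simp [spin_zero])
  have e2 : cen 2 = spin (Real.pi / 3) := (cen_succ 1 (by norm_num)).trans (by norm_num)
  have hcols2 : ∀ c, cen 2 ∈ D.K c ↔ c ≠ 0 := by
    have hs : ({1, 2, 3, 4} : Finset (Fin 5)) ⊆ cols D (cen 2) := by
      obtain ⟨-, -, a, b⟩ := hN 2 (by decide)
      rw [e2] at a b ⊢
      simp [Finset.insert_subset_iff, mem_cols, a, b, both.1, both.2]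
    obtain ⟨c0, hc0⟩ := D.not_five (hN 2 (by decide)).1
    have hc : c0 = 0 := by
      by_contra hne
      exact hc0 (mem_cols.1 (hs (by revert hne; clear * -; revert c0; decide)))
    intro c
    refine ⟨fun hc' hcz => hc0 (by rw [hc, ← hcz]; exact hc'), fun hne =>
      mem_cols.1 (hs (by revert hne; clear * -; revert c; decide))⟩
  simp only [RimTriple.ctx] at hs ⊢
  simp only [List.forall_mem_cons, List.not_mem_nil, IsEmpty.forall_iff,
    implies_true, and_true, List.mem_singleton, exists_eq_left, forall_eq, holds_pos, holds_neg,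
    val_vS, val_vN, val_vM]
  simp only [e1, hK1, hcols2]
  have h1 := hN 1 (by decide)
  rw [e1] at h1
  simp [hs, hN]
  exact ⟨h1.1, h1.2.1⟩


/-- The one colour of the first three that a rim point with four classes lacks. -/
lemma rim_missing (hn : Normal C) (k : ℤ) : ∃ x : Fin 5, x.val < 3 ∧
    ∀ c, spin (k * (Real.pi / 3)) ∈ C.K c ↔ c ≠ x := by
  obtain ⟨hI, h3, ha, hb⟩ := hn.rim_at k
  obtain ⟨x, hx⟩ := C.not_five hI
  have hlt : x.val < 3 := by
    by_contra hlt
    have : x = 3 ∨ x = 4 := by revert hlt; clear * -; revert x; decide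
    rcases this with rfl | rfl <;> contradiction
  have h4 : (cols C (spin (k * (Real.pi / 3)))).card = 4 := by
    have h := Finset.card_lt_card (Finset.ssubset_univ_iff.2
      (fun e => hx (mem_cols.1 (by rw [e]; exact Finset.mem_univ x)) :
        cols C (spin (k * (Real.pi / 3))) ≠ Finset.univ))
    have := rim_three hn k
    simp only [Finset.card_univ, Fintype.card_fin] at h
    omega
  exact ⟨x, hlt, fun c =>
    (cols_eq_compl (l := {x}) (by simp [h4]) (by simpa using hx) c).trans (by simp)⟩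

/-- The rim data in the renamed configuration. -/
lemma rim_renamed (hn : Normal C) {σ ρ : Equiv.Perm (Fin 5)}
    (hσ : ∀ c : Fin 5, (σ c).val < 3 ↔ c.val < 3) (hρ : ∀ c : Fin 5, (ρ c).val < 3 ↔ c.val < 3)
    {n : Fin 7} (hn0 : n ≠ 0) :
    ¬ ((C.perm σ).perm ρ).Inside (cen n) ∧ 3 ≤ (cols ((C.perm σ).perm ρ) (cen n)).card ∧
      cen n ∈ ((C.perm σ).perm ρ).K 3 ∧ cen n ∈ ((C.perm σ).perm ρ).K 4 := by
  obtain ⟨m, hm⟩ := cen_spin n hn0
  rw [hm]
  exact ((hn.perm_conf' σ hσ).perm_conf' ρ hρ).rim_at m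

/-- Two renamings give the two rim points their colours. -/
lemma renamed_K (hn : Normal C) {σ ρ : Equiv.Perm (Fin 5)} (hσ : ∀ c : Fin 5, c.val < 3 → σ c = c)
    {x y : Fin 5} (hx : x.val < 3) (e : ρ y = x) {p : ℂ} (hp : ∀ c, p ∈ C.K c ↔ c ≠ x) (c : Fin 5) :
    p ∈ ((C.perm σ).perm ρ).K c ↔ c ≠ y := by
  rw [Cover.mem_perm_K, Cover.mem_perm_K, hp]
  have : σ (ρ y) = x := by rw [e, hσ x hx]
  exact not_congr ⟨fun h => ρ.injective (σ.injective (h.trans this.symm)), fun h => h ▸ this⟩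

/-- Two neighbouring rim points cannot lack different colours. -/
lemma rim_same (hn : Normal C) (k : ℤ) {x y : Fin 5} (hx : x.val < 3) (hy : y.val < 3)
    (hK : ∀ c, spin (k * (Real.pi / 3)) ∈ C.K c ↔ c ≠ x)
    (hK' : ∀ c, spin ((k + 1 : ℤ) * (Real.pi / 3)) ∈ C.K c ↔ c ≠ y) : x = y := by
  by_contra hxy
  set E := C.map (move 0 (((k - 4 : ℤ) : ℝ) * (Real.pi / 3))) with hE
  have hnE : Normal E := hn.rot (k - 4)
  have hE5 : ∀ c, cen 5 ∈ E.K c ↔ c ≠ x := fun c => by
    rw [hE, C.mem_map_K, show cen 5 = _ from cen_succ 4 (by norm_num), ← hK]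
    simp only [move_apply, zero_add, spin, ← Complex.exp_add]
    push_cast; ring_nf
  have hE6 : ∀ c, cen 6 ∈ E.K c ↔ c ≠ y := fun c => by
    rw [hE, C.mem_map_K, show cen 6 = _ from cen_succ 5 (by norm_num), ← hK']
    simp only [move_apply, zero_add, spin, ← Complex.exp_add]
    push_cast; ring_nf
  obtain ⟨σ, hσ, hσ', hframe⟩ := hnE.frame (X := RimPair.ctx) rfl (by decide) rfl
  obtain ⟨z, hz⟩ : ∃ z : Fin 5, ![z, y, x, 3, 4].Injective ∧ z.val < 3 := by
    revert hx hy hxy; clear * -; revert x y; decide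
  have hρ : ∀ c : Fin 5, (colourPerm _ hz.1 c).val < 3 ↔ c.val < 3 := by
    intro c
    rw [colourPerm_apply]
    have := hz.2
    revert hx hy this; clear * -; revert c x y z; decide
  obtain ⟨τ, hg, hyp⟩ := hframe (colourPerm _ hz.1) hρ rfl rfl
  refine RimPair.refuted hg (hyp fun hs => ?_)
  have hN := fun n (h : n ≠ (0 : Fin 7)) => rim_renamed hnE hσ' hρ h
  have h5 := renamed_K hnE hσ hx (show colourPerm _ hz.1 2 = x from rfl) hE5
  have h6 := renamed_K hnE hσ hy (show colourPerm _ hz.1 1 = y from rfl) hE6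
  simp only [RimPair.ctx] at hs ⊢
  simp only [List.forall_mem_cons, List.not_mem_nil, IsEmpty.forall_iff, implies_true, and_true,
    List.mem_singleton, exists_eq_left, forall_eq, holds_pos, holds_neg, val_vS, val_vN, val_vM]
  simp [hs, hN, h5, h6]

/-- There is no normal position. -/
lemma not_normal (hn : Normal C) : False := by
  obtain ⟨x, hx, hK⟩ := rim_missing hn 0
  have same : ∀ k : ℤ, ∀ c, spin (k * (Real.pi / 3)) ∈ C.K c ↔ c ≠ x := by
    intro k
    induction k using Int.induction_on with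
    | zero => exact hK
    | succ k ih =>
      obtain ⟨y, hy, hKy⟩ := rim_missing hn ((k : ℤ) + 1)
      exact (rim_same hn k hx hy ih hKy).symm ▸ hKy
    | pred k ih =>
      obtain ⟨y, hy, hKy⟩ := rim_missing hn (-(k : ℤ) - 1)
      have := rim_same hn (-(k : ℤ) - 1) hy hx hKy (by rw [sub_add_cancel]; exact ih)
      exact this ▸ hKy
  obtain ⟨σ, hσ, hσ', hframe⟩ := hn.frame (X := RimEqual.ctx) rfl (by decide) rfl
  have hρ : ∀ c : Fin 5, (Equiv.swap 2 x c).val < 3 ↔ c.val < 3 := by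
    revert hx; clear * -; revert x; decide
  obtain ⟨τ, hg, hyp⟩ := hframe _ hρ (by revert hx; clear * -; revert x; decide)
    (by revert hx; clear * -; revert x; decide)
  refine RimEqual.refuted hg (hyp fun hs => ?_)
  have hN := fun n (h : n ≠ (0 : Fin 7)) => rim_renamed hn hσ' hρ h
  have hM : ∀ n : Fin 7, n ≠ 0 → ∀ c,
      cen n ∈ ((C.perm σ).perm (Equiv.swap 2 x)).K c ↔ c ≠ 2 := fun n h => by
    obtain ⟨m, hm⟩ := cen_spin n h
    exact renamed_K hn hσ hx (Equiv.swap_apply_left 2 x) (fun c => by rw [hm]; exact same m c)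
  simp only [RimEqual.ctx] at hs ⊢
  simp only [List.forall_mem_cons, List.not_mem_nil, IsEmpty.forall_iff, implies_true, and_true,
    List.mem_singleton, exists_eq_left, forall_eq, holds_pos, holds_neg, val_vS, val_vN, val_vM]
  simp [hs, hN, hM]

/-- No boundary point lies in exactly three closed classes. -/
theorem not_three (C : Cover) {p : ℂ} (hp : ¬ C.Inside p) : (cols C p).card ≠ 3 := by
  intro h3
  obtain ⟨a, b, c, hab, hac, hbc, habc⟩ := Finset.card_eq_three.1 h3
  obtain ⟨d, e, hinj⟩ := exists_last_two a b c (by simp [hab, hac, hbc])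
  set D := (C.map (move p 0)).perm (colourPerm _ hinj) with hD
  have hT : TriConf D := by
    refine ⟨fun x => ?_, ?_⟩
    · rw [hD, Cover.mem_perm_K, C.mem_map_K, ← mem_cols, move_apply, mul_zero, add_zero, habc,
        colourPerm_apply]
      simp only [Finset.mem_insert, Finset.mem_singleton]
      constructor
      · rintro (h | h | h)
        · rw [hinj (show ![a, b, c, d, e] x = ![a, b, c, d, e] 0 from h)]; decide
        · rw [hinj (show ![a, b, c, d, e] x = ![a, b, c, d, e] 1 from h)]; decide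
        · rw [hinj (show ![a, b, c, d, e] x = ![a, b, c, d, e] 2 from h)]; decide
      · intro h; fin_cases x <;> simp at h ⊢
    · rw [hD, Cover.inside_perm, C.inside_map]; simpa using hp
  obtain ⟨θ, hθ, hcalm⟩ := exists_calm ((D.isClosed_circ 3).inter (D.isClosed_circ 4))
    hT.switch_interior hT.switch_nonempty hT.switch_periodic
  have e' : (D.map (move 0 θ)).circ 3 ∩ (D.map (move 0 θ)).circ 4 =
      (fun t => θ + t) ⁻¹' (D.circ 3 ∩ D.circ 4) := by
    ext t; rw [mem_inter_iff, D.mem_circ_rot, D.mem_circ_rot]; rfl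
  exact not_normal ⟨hT.rot_conf θ, e'.symm ▸ hcalm, e'.symm ▸ by simpa using hθ⟩

end Cover

end Vale.Agent.P032
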